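import Vale.Agent.P032.H766.BitRun
import Vale.Agent.P032.H515.GenS

/-!
# P032: history bits for the wild machine

`Q j s` : the state `s` (inner and outer colour sets of all nodes) shows the event `j`.

* `ip_op`, `ips_op` : a generic state is locally constant,
* `wgen_hist` : **the form of `H515.wgen_states_all` with history bits**: any right state `s0` at `u1`, any left state `s1`
  at `u1 + 1`; `V β s A B`; a step takes a left state `L` with the bits `β` (all events of `L` are in `β`) to a right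
  state `R` with the bits `β ∪ events of R`; at the end the bits are the events of `s0` and all events of generic times
  in `(u1, u1 + 1)`;
* `wgen_hist_set` : the same, where `V` is known for ALL left states;
* `shows_of_arc` : an exact arc of the centre of a node is shown at some generic time.
-/

open Set Filter Topology Metric

noncomputable section

namespace Vale.Agent.P032.H766

open Vale.Agent.P032.Six Vale.Agent.P032.Words Vale.Agent.P032.S5.H767 Vale.Agent.P032.H892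
  Vale.Agent.P032.H61 Vale.Agent.P032.H556 Vale.Agent.P032.H515

variable {U : Fin 6 → Set ℂ} {T : ℂ → Set (Fin 6)}

theorem ip_op {x : ℂ} {t : ℝ} {P Q : Set (Fin 6)} (I : IP U T x t P Q) : ∀ᶠ w in 𝓝 t, IP U T x w P Q := by
  filter_upwards [I.loc.eventually_nhds, I.evP.eventually_nhds, I.evQ.eventually_nhds, I.loc, I.evP, I.evQ]
    with w h1 h2 h3 h4 h5 h6
  refine ⟨?_, fun p => ?_, fun p => ?_, h2, h3⟩
  · filter_upwards [h1] with v hv
    rw [hv, h4]
  · rw [← h5]; rfl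
  · rw [← h6]; rfl

section
variable {M : Type*} {X : M → ℂ} {off : M → ℝ} {u v : ℝ} {σ : M → Set (Fin 6) × Set (Fin 6)}

theorem ips_op [Finite M] (h : IPs U T X off v σ) : ∀ᶠ w in 𝓝 v, IPs U T X off w σ := by
  refine eventually_all.2 fun i => ?_
  exact (tendsto_add_o v (off i)).eventually (ip_op (h i))

theorem loc1_ips [Finite M] : Loc1 (IPs U T X off) := ⟨fun _ _ h => ips_op h, fun _ _ _ => ips_unique⟩

variable {B : Type} {D : B → Fin 6 → Set ℝ} {u1 : ℝ}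

/-- letters and bits, locally constant -/
def IPB' (U : Fin 6 → Set ℂ) (T : ℂ → Set (Fin 6)) (X : M → ℂ) (off : M → ℝ) (D : B → Fin 6 → Set ℝ)
    (u1 v : ℝ) (s : (M → Set (Fin 6) × Set (Fin 6)) × GB B × GB B) : Prop :=
  ∀ᶠ w in 𝓝 v, IPB U T X off D u1 w s

theorem loc1_ipb : Loc1 (IPB' U T X off D u1) := by
  refine ⟨fun v σ h => h.eventually_nhds, fun v σ σ' h h' => ?_⟩
  obtain ⟨a1, a2, a3⟩ := h.self_of_nhds
  obtain ⟨b1, b2, b3⟩ := h'.self_of_nhds
  exact Prod.ext (ips_unique a1 b1) (Prod.ext (a2.trans b2.symm) (a3.trans b3.symm))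

variable [Finite B]

theorem mem_lst' [Finite M] (hD : ∀ j q, IsClosed (D j q)) (h1 : u1 < u) (h2 : u ≤ u1 + 1)
    {s : (M → Set (Fin 6) × Set (Fin 6)) × GB B × GB B} :
    s ∈ LSt DO (IPB' U T X off D u1) u ↔ s ∈ LSt DO (IPB U T X off D u1) u := by
  constructor
  · intro h
    have h3 : ∃ᶠ v in 𝓝[<] u ⊓ DO, IPB' U T X off D u1 v s := h
    exact h3.mono fun v hv => hv.self_of_nhds
  · intro h
    obtain ⟨k1, k2, k3⟩ := (mem_lst_iffW hD h1 h2).1 h
    have k1 : ∃ᶠ v in 𝓝[<] u ⊓ DO, IPs U T X off v s.1 := k1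
    have hev := ev_cbits_left (D := D) hD h1 h2
    obtain ⟨c, hc, hs⟩ := (mem_nhdsLT_iff_exists_Ioo_subset (a := u)).1 hev
    refine (k1.and_eventually (evL hc)).mono fun v hv => ?_
    have h4 : ∀ᶠ w in 𝓝 v, w ∈ Ioo c u := Ioo_mem_nhds hv.2.1 hv.2.2
    filter_upwards [ips_op hv.1, h4] with w hw hw'
    have h5 := hs hw'
    exact ⟨hw, by rw [k2]; exact h5.1.symm, by rw [k3]; exact h5.2.symm⟩

theorem mem_rst' [Finite M] (hD : ∀ j q, IsClosed (D j q)) (h1 : u1 ≤ u)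
    {s : (M → Set (Fin 6) × Set (Fin 6)) × GB B × GB B} :
    s ∈ RSt DO (IPB' U T X off D u1) u ↔ s ∈ RSt DO (IPB U T X off D u1) u := by
  constructor
  · intro h
    have h3 : ∃ᶠ v in 𝓝[>] u ⊓ DO, IPB' U T X off D u1 v s := h
    exact h3.mono fun v hv => hv.self_of_nhds
  · intro h
    obtain ⟨k1, k2, k3⟩ := (mem_rst_iffW hD h1).1 h
    have k1 : ∃ᶠ v in 𝓝[>] u ⊓ DO, IPs U T X off v s.1 := k1
    have hev := ev_cbits_right (D := D) hD h1
    obtain ⟨c, hc, hs⟩ := (mem_nhdsGT_iff_exists_Ioo_subset (a := u)).1 hev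
    refine (k1.and_eventually (evR hc)).mono fun v hv => ?_
    have h4 : ∀ᶠ w in 𝓝 v, w ∈ Ioo u c := Ioo_mem_nhds hv.2.1 hv.2.2
    filter_upwards [ips_op hv.1, h4] with w hw hw'
    have h5 := hs hw'
    exact ⟨hw, by rw [k2]; exact h5.1.symm, by rw [k3]; exact h5.2.symm⟩

/-- **The induction with history bits**, `V` is known for all left states. -/
theorem wgen_hist_set [Finite M] {H : Type*} [Finite H] (hD : ∀ j q, IsClosed (D j q))
    {s0 s1 : M → Set (Fin 6) × Set (Fin 6)} (k0 : s0 ∈ RSt DO (IPs U T X off) u1)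
    (k1 : s1 ∈ LSt DO (IPs U T X off) (u1 + 1)) (Q : H → (M → Set (Fin 6) × Set (Fin 6)) → Prop)
    (V : Set H → (M → Set (Fin 6) × Set (Fin 6)) → GB B → GB B → Prop)
    (hV : V {j | Q j s0} s0 (cR D u1) (cS D u1))
    (hstep : ∀ u ∈ Ioo u1 (u1 + 1), ∀ β : Set H,
      (∀ L ∈ LSt DO (IPs U T X off) u, (∀ j, Q j L → j ∈ β) ∧ V β L (cAl D u1 u) (cBl D u1 u)) →
      ∀ R ∈ RSt DO (IPs U T X off) u, V (β ∪ {j | Q j R}) R (cAr D u1 u) (cBr D u1 u)) :
    V ({j | Q j s0} ∪ {j | ∃ v ∈ Ioo u1 (u1 + 1), ∃ s, IPs U T X off v s ∧ Q j s}) s1 (cS D u1) (cL D u1) := by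
  have hab : u1 < u1 + 1 := by linarith
  have m0 : (s0, cR D u1, cS D u1) ∈ RSt DO (IPB' U T X off D u1) u1 :=
    (mem_rst' hD le_rfl).2 ((mem_rst_iffW hD le_rfl).2 ⟨k0, ar_u1.symm, rfl⟩)
  have m1 : (s1, cS D u1, cL D u1) ∈ LSt DO (IPB' U T X off D u1) (u1 + 1) :=
    (mem_lst' hD hab le_rfl).2 ((mem_lst_iffW hD hab le_rfl).2 ⟨k1, al_u2.symm, bl_u2.symm⟩)
  have key := (loc1_ipb (U := U) (T := T) (X := X) (off := off) (D := D) (u1 := u1)).bits_run
    (Q := fun j s => Q j s.1) (V := fun β => {s | V β s.1 s.2.1 s.2.2}) hab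
    (fun u hu β hL s' hs' => by
      have m2 := (mem_rst_iffW hD hu.1.le).1 ((mem_rst' hD hu.1.le).1 hs')
      rw [ar_eq hu.1] at m2
      show V (β ∪ {j | Q j s'.1}) s'.1 s'.2.1 s'.2.2
      rw [m2.2.1, m2.2.2]
      refine hstep u hu β (fun L hLm => ?_) s'.1 m2.1
      have m3 : (L, cAl D u1 u, cBl D u1 u) ∈ LSt DO (IPB' U T X off D u1) u := by
        refine (mem_lst' hD hu.1 hu.2.le).2 ((mem_lst_iffW hD hu.1 hu.2.le).2 ⟨hLm, rfl, ?_⟩)
        rw [bl_eq hu.2]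
      exact hL _ m3) (s0 := (s0, cR D u1, cS D u1)) m0 (β0 := {j | Q j s0}) (fun j hj => hj) hV _ m1
  have e : {j | ∃ v ∈ Ioo u1 (u1 + 1), ∃ σ, IPB' U T X off D u1 v σ ∧ Q j σ.1} =
      {j | ∃ v ∈ Ioo u1 (u1 + 1), ∃ s, IPs U T X off v s ∧ Q j s} := by
    ext j
    constructor
    · rintro ⟨v, hv, σ, h1, h2⟩
      exact ⟨v, hv, σ.1, h1.self_of_nhds.1, h2⟩
    · rintro ⟨v, hv, s, h1, h2⟩
      obtain ⟨c, hc, hs⟩ := (mem_nhdsGT_iff_exists_Ioo_subset (a := v)).1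
        (inter_mem (ev_cbits_right (D := D) hD hv.1.le)
          (inter_mem (Ioo_mem_nhdsGT hv.2) (mem_nhdsWithin_of_mem_nhds (ips_op h1))))
      obtain ⟨w, hw1, hw2⟩ := exists_between (show v < c from hc)
      have h3 := hs ⟨hw1, hw2⟩
      refine ⟨w, ⟨hv.1.trans hw1, h3.2.1.2⟩,
        (s, fun j m q => cAr D u1 v j m q ∨ (v = u1 ∧ cR D u1 j m q), cBr D u1 v), ?_, h2⟩
      have h4 : ∀ᶠ w' in 𝓝 w, w' ∈ Ioo v c := Ioo_mem_nhds hw1 hw2
      filter_upwards [h4] with w' hw'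
      have h5 := hs hw'
      exact ⟨h5.2.2, h5.1.1.symm, h5.1.2.symm⟩
  rw [e] at key
  exact key

/-- **The induction with history bits along one path.** -/
theorem wgen_hist (h : Irr U T) [Finite M] {H : Type*} [Finite H] (hD : ∀ j q, IsClosed (D j q))
    {s0 s1 : M → Set (Fin 6) × Set (Fin 6)} (k0 : s0 ∈ RSt DO (IPs U T X off) u1)
    (k1 : s1 ∈ LSt DO (IPs U T X off) (u1 + 1)) (Q : H → (M → Set (Fin 6) × Set (Fin 6)) → Prop)
    (V : Set H → (M → Set (Fin 6) × Set (Fin 6)) → GB B → GB B → Prop)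
    (hV : V {j | Q j s0} s0 (cR D u1) (cS D u1))
    (hstep : ∀ u ∈ Ioo u1 (u1 + 1), ∀ β : Set H, ∀ L ∈ LSt DO (IPs U T X off) u, (∀ j, Q j L → j ∈ β) →
      V β L (cAl D u1 u) (cBl D u1 u) →
      ∀ R ∈ RSt DO (IPs U T X off) u, V (β ∪ {j | Q j R}) R (cAr D u1 u) (cBr D u1 u)) :
    V ({j | Q j s0} ∪ {j | ∃ v ∈ Ioo u1 (u1 + 1), ∃ s, IPs U T X off v s ∧ Q j s}) s1 (cS D u1) (cL D u1) := by
  refine wgen_hist_set hD k0 k1 Q V hV fun u hu β hL R hR => ?_
  obtain ⟨L, hLm⟩ := lst_neW h X off u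
  exact hstep u hu β L hLm (hL L hLm).1 (hL L hLm).2 R hR

omit [Finite B] in
/-- the same without the bits of `GermC` -/
theorem wgen_hist0 (h : Irr U T) [Finite M] {H : Type*} [Finite H]
    {s0 s1 : M → Set (Fin 6) × Set (Fin 6)} {a b : ℝ} (hab : a < b) (k0 : s0 ∈ RSt DO (IPs U T X off) a)
    (k1 : s1 ∈ LSt DO (IPs U T X off) b) (Q : H → (M → Set (Fin 6) × Set (Fin 6)) → Prop)
    (V : Set H → (M → Set (Fin 6) × Set (Fin 6)) → Prop) (hV : V {j | Q j s0} s0)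
    (hstep : ∀ u ∈ Ioo a b, ∀ β : Set H, ∀ L ∈ LSt DO (IPs U T X off) u, (∀ j, Q j L → j ∈ β) → V β L →
      ∀ R ∈ RSt DO (IPs U T X off) u, V (β ∪ {j | Q j R}) R) :
    V ({j | Q j s0} ∪ {j | ∃ v ∈ Ioo a b, ∃ s, IPs U T X off v s ∧ Q j s}) s1 := by
  refine (loc1_ips (U := U) (T := T) (X := X) (off := off)).bits_run (Q := Q) (V := fun β => {s | V β s}) hab
    (fun u hu β hL R hR => ?_) k0 (β0 := {j | Q j s0}) (fun j hj => hj) hV _ k1
  obtain ⟨L, hLm⟩ := lst_neW h X off u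
  exact hstep u hu β L hLm (hL L hLm).1 (hL L hLm).2 R hR

end

/-! ### exact arcs are shown -/

section
variable {M : Type*} {X : M → ℂ} {off : M → ℝ} {u1 : ℝ} {z p : ℂ} {C : Set (Fin 6)}

/-- **An exact arc of `S(z)` is shown** at a generic time of the interval, by one of the six nodes of `z`. -/
theorem shows_of_arc (h : Irr U T) [Finite M] (e : Fin 6 → M) (hX : ∀ m, X (e m) = z)
    (ho : ∀ m : Fin 6, ∃ n : ℤ, off (e m) = m.val + 6 * n) (hp : Arc T z p C) (u1 : ℝ) :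
    ∃ v ∈ Ioo u1 (u1 + 1), ∃ s, IPs U T X off v s ∧ ∃ m, (s (e m)).1 ∪ (s (e m)).2 = C := by
  obtain ⟨t0, ht0⟩ := exists_cis (u := p - z) (by rw [← dist_eq_norm]; exact hp.1)
  have hpi : (0 : ℝ) < Real.pi := Real.pi_pos
  -- the direction of `p`
  set t1 := t0 * (3 / Real.pi) with ht1
  have hpt : p = pt z t1 := by
    unfold pt
    rw [ht1, show t0 * (3 / Real.pi) * (Real.pi / 3) = t0 by field_simp, ← ht0]
    ring
  have hloc : ∀ᶠ v in 𝓝 t1, T (pt z v) = C := by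
    have h1 := hp.2
    rw [hpt] at h1
    have h2 : Tendsto (pt z) (𝓝 t1) (𝓝[sphere z 1] (pt z t1)) :=
      tendsto_nhdsWithin_of_tendsto_nhds_of_eventually_within _ (continuous_pt z).continuousAt
        (Eventually.of_forall fun v => dist_pt z v)
    exact h2.eventually h1
  -- shift into the window
  obtain ⟨d, hd, hs⟩ := (mem_nhdsGT_iff_exists_Ioo_subset (a := t1)).1 (mem_nhdsWithin_of_mem_nhds hloc)
  have hd : t1 < d := hd
  set k := ⌊t1 - u1⌋ with hk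
  have hk1 : (k : ℝ) ≤ t1 - u1 := Int.floor_le _
  have hk2 : t1 - u1 < k + 1 := Int.lt_floor_add_one _
  have hlt : t1 - k < min (d - k) (u1 + 1) := lt_min (by linarith) (by linarith)
  obtain ⟨G, hG, hGo, hGd⟩ := ips_DO h X off
  obtain ⟨v, hv1, hv2⟩ := dense_iff_inter_open.1 hGd (Ioo (t1 - k) (min (d - k) (u1 + 1))) isOpen_Ioo
    (nonempty_Ioo.2 hlt)
  obtain ⟨s, hsv⟩ := hG hv2
  refine ⟨v, ⟨by linarith [hv1.1], hv1.2.trans_le (min_le_right _ _)⟩, s, hsv,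
    ⟨(k % 6).toNat, by have := Int.emod_lt_of_pos k (show (0 : ℤ) < 6 by norm_num); have := Int.emod_nonneg k (show (6 : ℤ) ≠ 0 by norm_num); omega⟩, ?_⟩
  set m : Fin 6 := ⟨(k % 6).toNat, by have := Int.emod_lt_of_pos k (show (0 : ℤ) < 6 by norm_num); have := Int.emod_nonneg k (show (6 : ℤ) ≠ 0 by norm_num); omega⟩ with hm
  obtain ⟨n, hn⟩ := ho m
  have h3 := (hsv (e m)).union h
  rw [hX m, hn] at h3
  have h4 : pt z (v + ((m.val : ℕ) + 6 * n : ℝ)) = pt z (v + k) := by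
    have h5 : (k : ℝ) = (m.val : ℝ) + 6 * ((k / 6 : ℤ) : ℝ) := by
      have h6 : ((k % 6).toNat : ℤ) = k % 6 := Int.toNat_of_nonneg (Int.emod_nonneg k (by norm_num))
      have h7 := Int.emod_add_mul_ediv k 6
      have h8 : (k : ℝ) = (((k % 6).toNat : ℤ) : ℝ) + 6 * ((k / 6 : ℤ) : ℝ) := by
        rw [h6]; exact_mod_cast h7.symm
      rw [h8]
      push_cast
      rfl
    have h9 : v + ((m.val : ℕ) + 6 * n : ℝ) = v + k + 6 * ((n - k / 6 : ℤ) : ℝ) := by
      push_cast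
      rw [h5]
      ring
    rw [h9, pt_int]
  rw [← h3, h4]
  exact hs ⟨by linarith [hv1.1], by linarith [hv1.2.trans_le (min_le_left _ _)]⟩

end

end Vale.Agent.P032.H766
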