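import Vale.Agent.P032.H61.GenSt

/-!
# P032: the induction with monotone history bits (no local finiteness)

`P v σ` : the generic time `v` has the state `σ`; `P` is open in `v` and `σ` is unique (for instance `H892.IPs`).
`Q j σ` : the state `σ` shows the event `j`.  `V β` : the states which are reached when the events of `β` have been
seen.

* `run_all` : the induction for sets of states,
* `bits_run` : **start in one right state of `a`; at every time, if all left states are in `V β` (and show only events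
  of `β`), then every right state `σ'` is in `V (β ∪ events of σ')`; then all left states of `b` are in `V β1`, where
  `β1` contains the start bits and every event which occurs in `(a, b)`,**
* `last_exit`, `first_exit` : the last (first) exit from the complement of a set of states: on one side all states are in
  the set.
-/

open Set Filter Topology Metric

noncomputable section

namespace Vale.Agent.P032.H766

open Vale.Agent.P032.H61

section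
variable {S : Type*} {P : ℝ → S → Prop} {a b u : ℝ} {V : Set S}

/-- right states near `u` on the right -/
theorem run_all' [Finite S] (h0 : RSt DO P a ⊆ V)
    (hstep : ∀ u ∈ Ioo a b, LSt DO P u ⊆ V → RSt DO P u ⊆ V) : ∀ u ∈ Ioo a b, LSt DO P u ⊆ V ∧ RSt DO P u ⊆ V := by
  have key : ∀ u ∈ Ioo a b, RSt DO P u ⊆ V := by
    by_contra hcon
    push Not at hcon
    set Bad : Set ℝ := {u | u ∈ Ioo a b ∧ ¬ RSt DO P u ⊆ V} with hBad
    have hBne : Bad.Nonempty := by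
      obtain ⟨u, h1, h2⟩ := hcon
      exact ⟨u, h1, h2⟩
    have hbdd : BddBelow Bad := ⟨a, fun u hu => hu.1.1.le⟩
    set s := sInf Bad with hs
    have has : a ≤ s := le_csInf hBne fun u hu => hu.1.1.le
    have hsb : s < b := by
      obtain ⟨u, hu⟩ := hBne
      exact (csInf_le hbdd hu).trans_lt hu.1.2
    have hgood : ∀ u, a < u → u < s → RSt DO P u ⊆ V := by
      intro u h1 h2
      by_contra h3
      exact absurd (csInf_le hbdd (show u ∈ Bad from ⟨⟨h1, h2.trans hsb⟩, h3⟩)) (not_le.2 h2)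
    have hgs : RSt DO P s ⊆ V := by
      rcases has.eq_or_lt with h1 | h1
      · rw [← h1]; exact h0
      · refine hstep s ⟨h1, hsb⟩ fun σ hσ => ?_
        obtain ⟨v, hv, hv'⟩ := ((end_of_lst hσ).and_eventually (Ioo_mem_nhdsLT h1)).exists
        exact hgood v hv'.1 hv'.2 hv.2
    have h1 : ∀ᶠ v in 𝓝[>] s, RSt DO P v ⊆ V := by
      filter_upwards [ev_RSt (E := DO) (P := P) (u := s)] with v hv σ hσ
      exact hgs (hv σ (Or.inr hσ))
    obtain ⟨c, hc, hsub⟩ := (mem_nhdsGT_iff_exists_Ioo_subset (a := s)).1 h1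
    obtain ⟨u, hu, huc⟩ := exists_lt_of_csInf_lt hBne (show sInf Bad < c from hc)
    have hsu : s ≤ u := csInf_le hbdd hu
    rcases hsu.eq_or_lt with h2 | h2
    · rw [← h2] at hu; exact hu.2 hgs
    · exact hu.2 (hsub ⟨h2, huc⟩)
  intro u hu
  refine ⟨fun σ hσ => ?_, key u hu⟩
  obtain ⟨v, hv, hv'⟩ := ((end_of_lst hσ).and_eventually (Ioo_mem_nhdsLT hu.1)).exists
  exact key v ⟨hv'.1, hv'.2.trans hu.2⟩ hv.2

/-- **The induction for sets of states.** -/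
theorem run_all [Finite S] (hab : a < b) (h0 : RSt DO P a ⊆ V)
    (hstep : ∀ u ∈ Ioo a b, LSt DO P u ⊆ V → RSt DO P u ⊆ V) : LSt DO P b ⊆ V := by
  intro σ hσ
  obtain ⟨v, hv, hv'⟩ := ((end_of_lst hσ).and_eventually (Ioo_mem_nhdsLT hab)).exists
  exact (run_all' h0 hstep v hv').2 hv.2

theorem freqR_DO {O : Set ℝ} (hO : IsOpen O) (h : ∃ᶠ v in 𝓝[>] u, v ∈ O) : ∃ᶠ v in 𝓝[>] u ⊓ DO, v ∈ O := by
  rw [frequently_iff]
  intro N hN
  obtain ⟨s1, h1, s2, ⟨G, hG, hGo, hGd⟩, hs⟩ := mem_inf_iff_superset.1 hN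
  obtain ⟨c, hc, hsub⟩ := (mem_nhdsGT_iff_exists_Ioo_subset (a := u)).1 h1
  obtain ⟨v, hv, hv'⟩ := (h.and_eventually (Ioo_mem_nhdsGT hc)).exists
  obtain ⟨w, hw1, hw2⟩ := dense_iff_inter_open.1 hGd (O ∩ Ioo u c) (hO.inter isOpen_Ioo) ⟨v, hv, hv'⟩
  exact ⟨w, hs ⟨hsub hw1.2, hG hw2⟩, hw1.1⟩

theorem freqL_DO {O : Set ℝ} (hO : IsOpen O) (h : ∃ᶠ v in 𝓝[<] u, v ∈ O) : ∃ᶠ v in 𝓝[<] u ⊓ DO, v ∈ O := by
  rw [frequently_iff]
  intro N hN
  obtain ⟨s1, h1, s2, ⟨G, hG, hGo, hGd⟩, hs⟩ := mem_inf_iff_superset.1 hN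
  obtain ⟨c, hc, hsub⟩ := (mem_nhdsLT_iff_exists_Ioo_subset (a := u)).1 h1
  obtain ⟨v, hv, hv'⟩ := (h.and_eventually (Ioo_mem_nhdsLT hc)).exists
  obtain ⟨w, hw1, hw2⟩ := dense_iff_inter_open.1 hGd (O ∩ Ioo c u) (hO.inter isOpen_Ioo) ⟨v, hv, hv'⟩
  exact ⟨w, hs ⟨hsub hw1.2, hG hw2⟩, hw1.1⟩

theorem evR {c : ℝ} (h : u < c) : ∀ᶠ w in 𝓝[>] u ⊓ DO, w ∈ Ioo u c :=
  (show ∀ᶠ w in 𝓝[>] u, w ∈ Ioo u c from Ioo_mem_nhdsGT h).filter_mono inf_le_left

theorem evL {c : ℝ} (h : c < u) : ∀ᶠ w in 𝓝[<] u ⊓ DO, w ∈ Ioo c u :=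
  (show ∀ᶠ w in 𝓝[<] u, w ∈ Ioo c u from Ioo_mem_nhdsLT h).filter_mono inf_le_left

/-- the state is unique and locally constant -/
structure Loc1 (P : ℝ → S → Prop) : Prop where
  op : ∀ v σ, P v σ → ∀ᶠ w in 𝓝 v, P w σ
  uq : ∀ v σ σ', P v σ → P v σ' → σ = σ'

namespace Loc1
variable (L : Loc1 P)
include L

theorem rst_eq {v : ℝ} {σ : S} (hσ : P v σ) : ∀ σ' ∈ RSt DO P v, σ' = σ := by
  intro σ' h
  have h : ∃ᶠ w in 𝓝[>] v ⊓ DO, P w σ' := h
  obtain ⟨w, h1, h2⟩ := (h.and_eventually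
    (((L.op v σ hσ).filter_mono nhdsWithin_le_nhds).filter_mono inf_le_left)).exists
  exact L.uq w σ' σ h1 h2

theorem lst_eq {v : ℝ} {σ : S} (hσ : P v σ) : ∀ σ' ∈ LSt DO P v, σ' = σ := by
  intro σ' h
  have h : ∃ᶠ w in 𝓝[<] v ⊓ DO, P w σ' := h
  obtain ⟨w, h1, h2⟩ := (h.and_eventually
    (((L.op v σ hσ).filter_mono nhdsWithin_le_nhds).filter_mono inf_le_left)).exists
  exact L.uq w σ' σ h1 h2

/-- an open property of the generic states is frequent on the right ⇒ some right state has it -/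
theorem ex_rst [Finite S] {Q : S → Prop} (h : ∃ᶠ v in 𝓝[>] u, ∃ σ, P v σ ∧ Q σ) :
    ∃ σ ∈ RSt DO P u, Q σ := by
  have hO : IsOpen {v | ∃ σ, P v σ ∧ Q σ} := by
    rw [isOpen_iff_mem_nhds]
    rintro v ⟨σ, h1, h2⟩
    filter_upwards [L.op v σ h1] with w hw
    exact ⟨σ, hw, h2⟩
  obtain ⟨σ, hσ⟩ := freq_ex (Q := fun σ v => P v σ ∧ Q σ) (freqR_DO hO h)
  obtain ⟨v, hv⟩ := hσ.exists
  exact ⟨σ, hσ.mono fun _ hw => hw.1, hv.2⟩

theorem ex_lst [Finite S] {Q : S → Prop} (h : ∃ᶠ v in 𝓝[<] u, ∃ σ, P v σ ∧ Q σ) :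
    ∃ σ ∈ LSt DO P u, Q σ := by
  have hO : IsOpen {v | ∃ σ, P v σ ∧ Q σ} := by
    rw [isOpen_iff_mem_nhds]
    rintro v ⟨σ, h1, h2⟩
    filter_upwards [L.op v σ h1] with w hw
    exact ⟨σ, hw, h2⟩
  obtain ⟨σ, hσ⟩ := freq_ex (Q := fun σ v => P v σ ∧ Q σ) (freqL_DO hO h)
  obtain ⟨v, hv⟩ := hσ.exists
  exact ⟨σ, hσ.mono fun _ hw => hw.1, hv.2⟩

omit L in
/-- no generic time of the interval shows the property -/
theorem not_rst {Q : S → Prop} (hn : ∀ v ∈ Ioo a b, ∀ σ, P v σ → ¬ Q σ) (hu : u ∈ Ico a b) :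
    ∀ σ ∈ RSt DO P u, ¬ Q σ := by
  intro σ hσ
  have hσ : ∃ᶠ w in 𝓝[>] u ⊓ DO, P w σ := hσ
  obtain ⟨w, h1, h2⟩ := (hσ.and_eventually (evR hu.2)).exists
  exact hn w ⟨hu.1.trans_lt h2.1, h2.2⟩ σ h1

omit L in
theorem not_lst {Q : S → Prop} (hn : ∀ v ∈ Ioo a b, ∀ σ, P v σ → ¬ Q σ) (hu : u ∈ Ioc a b) :
    ∀ σ ∈ LSt DO P u, ¬ Q σ := by
  intro σ hσ
  have hσ : ∃ᶠ w in 𝓝[<] u ⊓ DO, P w σ := hσ
  obtain ⟨w, h1, h2⟩ := (hσ.and_eventually (evL hu.1)).exists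
  exact hn w ⟨h2.1, h2.2.trans_le hu.2⟩ σ h1

/-- **The induction with history bits.** -/
theorem bits_run [Finite S] {B : Type*} [Finite B] {Q : B → S → Prop} {V : Set B → Set S} (hab : a < b)
    (hstep : ∀ u ∈ Ioo a b, ∀ β : Set B,
      (∀ σ ∈ LSt DO P u, (∀ j, Q j σ → j ∈ β) ∧ σ ∈ V β) → ∀ σ' ∈ RSt DO P u, σ' ∈ V (β ∪ {j | Q j σ'}))
    {s0 : S} (h0 : s0 ∈ RSt DO P a) {β0 : Set B} (hβ0 : ∀ j, Q j s0 → j ∈ β0) (hV0 : s0 ∈ V β0) :
    ∀ s1 ∈ LSt DO P b, s1 ∈ V (β0 ∪ {j | ∃ v ∈ Ioo a b, ∃ σ, P v σ ∧ Q j σ}) := by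
  have key : ∀ n : ℕ, ∀ a', a ≤ a' → a' < b → ∀ s0 ∈ RSt DO P a', ∀ β : Set B, βᶜ.ncard = n →
      (∀ j, Q j s0 → j ∈ β) → s0 ∈ V β →
      ∀ s1 ∈ LSt DO P b, s1 ∈ V (β ∪ {j | ∃ v ∈ Ioo a' b, ∃ σ, P v σ ∧ Q j σ}) := by
    intro n
    induction n using Nat.strong_induction_on with
    | _ n ih =>
      intro a' haa' hab' s0 h0 β hβn hβ0 hV0 s1 hs1
      have h0' : ∃ᶠ w in 𝓝[>] a' ⊓ DO, P w s0 := h0
      -- the start
      have hJ : ∀ᶠ v in 𝓝[>] a', ∀ j, (∃ w ∈ Ioo a' b, ∃ σ, P w σ ∧ Q j σ) → ∃ w ∈ Ioo v b, ∃ σ, P w σ ∧ Q j σ := by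
        refine eventually_all.2 fun j => ?_
        by_cases hj : ∃ w ∈ Ioo a' b, ∃ σ, P w σ ∧ Q j σ
        · obtain ⟨w, hw, hσ⟩ := hj
          filter_upwards [Ioo_mem_nhdsGT hw.1] with v hv _
          exact ⟨w, ⟨hv.2, hw.2⟩, hσ⟩
        · exact Eventually.of_forall fun _ hj' => absurd hj' hj
      obtain ⟨v0, hv0P, hv0J, hv0⟩ := (h0'.and_eventually
        ((hJ.filter_mono inf_le_left).and (evR hab'))).exists
      have hR0 : RSt DO P v0 ⊆ {σ | (∀ j, Q j σ → j ∈ β) ∧ σ ∈ V β} := by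
        intro σ hσ
        rw [L.rst_eq hv0P σ hσ]
        exact ⟨hβ0, hV0⟩
      -- a run without new events
      have hrun : ∀ m, v0 < m → m ≤ b → (∀ v ∈ Ioo v0 m, ∀ σ, P v σ → ∀ j, Q j σ → j ∈ β) →
          LSt DO P m ⊆ {σ | (∀ j, Q j σ → j ∈ β) ∧ σ ∈ V β} := by
        intro m hm hmb hno
        refine run_all hm hR0 fun u hu hL σ' hσ' => ?_
        have h1 : ∀ j, Q j σ' → j ∈ β := by
          intro j hj
          by_contra hjβ
          exact not_rst (Q := Q j) (a := v0) (b := m) (fun v hv σ hσ hq => hjβ (hno v hv σ hσ j hq))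
            ⟨hu.1.le, hu.2⟩ σ' hσ' hj
        have h2 := hstep u ⟨(haa'.trans_lt hv0.1).trans hu.1, hu.2.trans_le hmb⟩ β (fun σ hσ => hL hσ) σ' hσ'
        have h3 : β ∪ {j | Q j σ'} = β := union_eq_self_of_subset_right h1
        rw [h3] at h2
        exact ⟨h1, h2⟩
      by_cases hA : ∃ v ∈ Ioo v0 b, ∃ j, j ∉ β ∧ ∃ σ, P v σ ∧ Q j σ
      · set A : Set ℝ := {v | v ∈ Ioo v0 b ∧ ∃ j, j ∉ β ∧ ∃ σ, P v σ ∧ Q j σ} with hAdef
        have hAne : A.Nonempty := by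
          obtain ⟨v, hv, h1⟩ := hA
          exact ⟨v, hv, h1⟩
        have hAo : IsOpen A := by
          rw [isOpen_iff_mem_nhds]
          rintro v ⟨hv, j, hj, σ, h1, h2⟩
          filter_upwards [Ioo_mem_nhds hv.1 hv.2, L.op v σ h1] with w hw hw2
          exact ⟨hw, j, hj, σ, hw2, h2⟩
        have hbdd : BddBelow A := ⟨v0, fun v hv => hv.1.1.le⟩
        set m := sInf A with hm
        have hm0 : v0 ≤ m := le_csInf hAne fun v hv => hv.1.1.le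
        have hmb : m < b := by
          obtain ⟨v, hv⟩ := hAne
          exact (csInf_le hbdd hv).trans_lt hv.1.2
        have hm1 : v0 < m := by
          refine lt_of_le_of_ne hm0 fun he => ?_
          obtain ⟨d, hd, hs⟩ := (mem_nhdsGT_iff_exists_Ioo_subset (a := v0)).1
            (mem_nhdsWithin_of_mem_nhds (L.op v0 s0 hv0P))
          obtain ⟨w, hw, hwd⟩ := exists_lt_of_csInf_lt hAne (show sInf A < d by rw [← hm, ← he]; exact hd)
          obtain ⟨hw1, j, hj, σ, h1, h2⟩ := hw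
          have h3 : P w s0 := hs ⟨hw1.1, hwd⟩
          rw [L.uq w σ s0 h1 h3] at h2
          exact hj (hβ0 j h2)
        have hmA : m ∉ A := by
          intro hmA
          obtain ⟨d, hd, hs⟩ := (mem_nhdsLT_iff_exists_Ioo_subset (a := m)).1
            (mem_nhdsWithin_of_mem_nhds (hAo.mem_nhds hmA))
          obtain ⟨w, hw1, hw2⟩ := exists_between (show d < m from hd)
          exact absurd (csInf_le hbdd (hs ⟨hw1, hw2⟩)) (not_le.2 hw2)
        have hLm := hrun m hm1 hmb.le fun v hv σ hσ j hq => by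
          by_contra hj
          exact absurd (csInf_le hbdd (show v ∈ A from ⟨⟨hv.1, hv.2.trans hmb⟩, j, hj, σ, hσ, hq⟩))
            (not_le.2 hv.2)
        have hfr : ∃ᶠ v in 𝓝[>] m, ∃ σ, P v σ ∧ ∃ j, j ∉ β ∧ Q j σ := by
          rw [frequently_iff]
          intro N hN
          obtain ⟨d, hd, hs⟩ := (mem_nhdsGT_iff_exists_Ioo_subset (a := m)).1 hN
          obtain ⟨w, hw, hwd⟩ := exists_lt_of_csInf_lt hAne (show sInf A < d from hd)
          have h1 : m ≤ w := csInf_le hbdd hw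
          have h2 : m ≠ w := fun he => hmA (he ▸ hw)
          obtain ⟨-, j, hj, σ, h3, h4⟩ := hw
          exact ⟨w, hs ⟨lt_of_le_of_ne h1 h2, hwd⟩, σ, h3, j, hj, h4⟩
        obtain ⟨σ2, hσ2, j2, hj2, hq2⟩ := L.ex_rst hfr
        have ham : a < m := (haa'.trans_lt hv0.1).trans hm1
        have hstep2 := hstep m ⟨ham, hmb⟩ β (fun σ hσ => hLm hσ) σ2 hσ2
        have hlt : (β ∪ {j | Q j σ2})ᶜ.ncard < n := by
          rw [← hβn]
          refine Set.ncard_lt_ncard ?_ (Set.toFinite _)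
          refine ⟨compl_subset_compl.2 subset_union_left, fun hcon => ?_⟩
          exact (hcon hj2) (Or.inr hq2)
        have hfin := ih _ hlt m ham.le hmb σ2 hσ2 _ rfl (fun j hj => Or.inr hj) hstep2 s1 hs1
        have hset : (β ∪ {j | Q j σ2}) ∪ {j | ∃ v ∈ Ioo m b, ∃ σ, P v σ ∧ Q j σ} =
            β ∪ {j | ∃ v ∈ Ioo a' b, ∃ σ, P v σ ∧ Q j σ} := by
          apply Subset.antisymm
          · rintro j ((hj | hj) | ⟨v, hv, hj⟩)
            · exact Or.inl hj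
            · right
              have hσ2' : ∃ᶠ w in 𝓝[>] m ⊓ DO, P w σ2 := hσ2
              obtain ⟨w, h1, h2⟩ := (hσ2'.and_eventually (evR hmb)).exists
              exact ⟨w, ⟨(hv0.1.trans hm1).trans h2.1, h2.2⟩, σ2, h1, hj⟩
            · exact Or.inr ⟨v, ⟨(hv0.1.trans hm1).trans hv.1, hv.2⟩, hj⟩
          · rintro j (hj | hj)
            · exact Or.inl (Or.inl hj)
            · by_cases hjβ : j ∈ β
              · exact Or.inl (Or.inl hjβ)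
              · obtain ⟨v, hv, σ, h1, h2⟩ := hv0J j hj
                have hvA : v ∈ A := ⟨hv, j, hjβ, σ, h1, h2⟩
                have h3 : m ≤ v := csInf_le hbdd hvA
                have h4 : m ≠ v := fun he => hmA (he ▸ hvA)
                exact Or.inr ⟨v, ⟨lt_of_le_of_ne h3 h4, hv.2⟩, σ, h1, h2⟩
        rw [hset] at hfin
        exact hfin
      · push Not at hA
        have hno : ∀ v ∈ Ioo v0 b, ∀ σ, P v σ → ∀ j, Q j σ → j ∈ β := by
          intro v hv σ hσ j hj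
          by_contra hjβ
          exact hA v hv j hjβ σ hσ hj
        have h1 := (hrun b hv0.2 le_rfl hno hs1).2
        have h2 : {j | ∃ v ∈ Ioo a' b, ∃ σ, P v σ ∧ Q j σ} ⊆ β := by
          intro j hj
          obtain ⟨v, hv, σ, h3, h4⟩ := hv0J j hj
          exact hno v hv σ h3 j h4
        rwa [union_eq_self_of_subset_right h2]
  exact key _ a le_rfl hab s0 h0 β0 rfl hβ0 hV0

/-- **Last exit.**  `C` a set of states; some generic time of `(a, b)` has its state outside `C`, and the states of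
generic times just before `b` are in `C`.  There is a time `m ∈ (a, b)` with a left state outside `C`, such that all
generic states on `(m, b)` are in `C`; in particular all right states of `m`. -/
theorem last_exit [Finite S] {C : Set S} {v1 : ℝ} (hv1 : v1 ∈ Ioo a b) {σ1 : S} (hσ1 : P v1 σ1) (hσC : σ1 ∉ C)
    (hend : ∀ᶠ v in 𝓝[<] b, ∀ σ, P v σ → σ ∈ C) :
    ∃ m ∈ Ioo a b, (∃ σ ∈ LSt DO P m, σ ∉ C) ∧ (∀ v ∈ Ioo m b, ∀ σ, P v σ → σ ∈ C) ∧ RSt DO P m ⊆ C := by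
  set A : Set ℝ := {v | v ∈ Ioo a b ∧ ∃ σ, P v σ ∧ σ ∉ C} with hA
  have hAo : IsOpen A := by
    rw [isOpen_iff_mem_nhds]
    rintro v ⟨hv, σ, h1, h2⟩
    filter_upwards [Ioo_mem_nhds hv.1 hv.2, L.op v σ h1] with w hw hw2
    exact ⟨hw, σ, hw2, h2⟩
  have hAne : A.Nonempty := ⟨v1, hv1, σ1, hσ1, hσC⟩
  have hbdd : BddAbove A := ⟨b, fun v hv => hv.1.2.le⟩
  set m := sSup A with hm
  obtain ⟨d, hd, hds⟩ := (mem_nhdsLT_iff_exists_Ioo_subset (a := b)).1 hend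
  have hd : d < b := hd
  have hmd : m ≤ d := csSup_le hAne fun v hv => by
    by_contra hcon
    obtain ⟨hv1, σ, h1, h2⟩ := hv
    exact h2 (hds ⟨not_le.1 hcon, hv1.2⟩ σ h1)
  have hmb : m < b := hmd.trans_lt hd
  have ham : a < m := hv1.1.trans_le (le_csSup hbdd ⟨hv1, σ1, hσ1, hσC⟩)
  have hmA : m ∉ A := by
    intro hmA
    obtain ⟨c, hc, hs⟩ := (mem_nhdsGT_iff_exists_Ioo_subset (a := m)).1
      (mem_nhdsWithin_of_mem_nhds (hAo.mem_nhds hmA))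
    obtain ⟨w, hw1, hw2⟩ := exists_between (show m < c from hc)
    exact absurd (le_csSup hbdd (hs ⟨hw1, hw2⟩)) (not_le.2 hw1)
  have hC : ∀ v ∈ Ioo m b, ∀ σ, P v σ → σ ∈ C := by
    intro v hv σ hσ
    by_contra hcon
    exact absurd (le_csSup hbdd (show v ∈ A from ⟨⟨ham.trans hv.1, hv.2⟩, σ, hσ, hcon⟩)) (not_le.2 hv.1)
  refine ⟨m, ⟨ham, hmb⟩, ?_, hC, ?_⟩
  · refine L.ex_lst (Q := fun σ => σ ∉ C) ?_
    rw [frequently_iff]
    intro N hN
    obtain ⟨c, hc, hs⟩ := (mem_nhdsLT_iff_exists_Ioo_subset (a := m)).1 hN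
    obtain ⟨w, hw, hwc⟩ := exists_lt_of_lt_csSup hAne (show c < sSup A from hc)
    have h1 : w ≤ m := le_csSup hbdd hw
    have h2 : w ≠ m := fun he => hmA (he ▸ hw)
    obtain ⟨-, σ, h3, h4⟩ := hw
    exact ⟨w, hs ⟨hwc, lt_of_le_of_ne h1 h2⟩, σ, h3, h4⟩
  · intro σ hσ
    by_contra hcon
    exact not_rst (Q := fun σ => σ ∉ C) (a := m) (b := b) (fun v hv σ hσ h => h (hC v hv σ hσ))
      ⟨le_rfl, hmb⟩ σ hσ hcon

/-- **First exit.** -/
theorem first_exit [Finite S] {C : Set S} {v1 : ℝ} (hv1 : v1 ∈ Ioo a b) {σ1 : S} (hσ1 : P v1 σ1) (hσC : σ1 ∉ C)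
    (hst : ∀ᶠ v in 𝓝[>] a, ∀ σ, P v σ → σ ∈ C) :
    ∃ m ∈ Ioo a b, (∃ σ ∈ RSt DO P m, σ ∉ C) ∧ (∀ v ∈ Ioo a m, ∀ σ, P v σ → σ ∈ C) ∧ LSt DO P m ⊆ C := by
  set A : Set ℝ := {v | v ∈ Ioo a b ∧ ∃ σ, P v σ ∧ σ ∉ C} with hA
  have hAo : IsOpen A := by
    rw [isOpen_iff_mem_nhds]
    rintro v ⟨hv, σ, h1, h2⟩
    filter_upwards [Ioo_mem_nhds hv.1 hv.2, L.op v σ h1] with w hw hw2
    exact ⟨hw, σ, hw2, h2⟩
  have hAne : A.Nonempty := ⟨v1, hv1, σ1, hσ1, hσC⟩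
  have hbdd : BddBelow A := ⟨a, fun v hv => hv.1.1.le⟩
  set m := sInf A with hm
  obtain ⟨d, hd, hds⟩ := (mem_nhdsGT_iff_exists_Ioo_subset (a := a)).1 hst
  have hd : a < d := hd
  have hmd : d ≤ m := le_csInf hAne fun v hv => by
    by_contra hcon
    obtain ⟨hv1, σ, h1, h2⟩ := hv
    exact h2 (hds ⟨hv1.1, not_le.1 hcon⟩ σ h1)
  have ham : a < m := hd.trans_le hmd
  have hmb : m < b := (csInf_le hbdd ⟨hv1, σ1, hσ1, hσC⟩).trans_lt hv1.2
  have hmA : m ∉ A := by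
    intro hmA
    obtain ⟨c, hc, hs⟩ := (mem_nhdsLT_iff_exists_Ioo_subset (a := m)).1
      (mem_nhdsWithin_of_mem_nhds (hAo.mem_nhds hmA))
    obtain ⟨w, hw1, hw2⟩ := exists_between (show c < m from hc)
    exact absurd (csInf_le hbdd (hs ⟨hw1, hw2⟩)) (not_le.2 hw2)
  have hC : ∀ v ∈ Ioo a m, ∀ σ, P v σ → σ ∈ C := by
    intro v hv σ hσ
    by_contra hcon
    exact absurd (csInf_le hbdd (show v ∈ A from ⟨⟨hv.1, hv.2.trans hmb⟩, σ, hσ, hcon⟩)) (not_le.2 hv.2)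
  refine ⟨m, ⟨ham, hmb⟩, ?_, hC, ?_⟩
  · refine L.ex_rst (Q := fun σ => σ ∉ C) ?_
    rw [frequently_iff]
    intro N hN
    obtain ⟨c, hc, hs⟩ := (mem_nhdsGT_iff_exists_Ioo_subset (a := m)).1 hN
    obtain ⟨w, hw, hwc⟩ := exists_lt_of_csInf_lt hAne (show sInf A < c from hc)
    have h1 : m ≤ w := csInf_le hbdd hw
    have h2 : m ≠ w := fun he => hmA (he ▸ hw)
    obtain ⟨-, σ, h3, h4⟩ := hw
    exact ⟨w, hs ⟨lt_of_le_of_ne h1 h2, hwc⟩, σ, h3, h4⟩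
  · intro σ hσ
    by_contra hcon
    exact not_lst (Q := fun σ => σ ∉ C) (a := a) (b := m) (fun v hv σ hσ h => h (hC v hv σ hσ))
      ⟨ham, le_rfl⟩ σ hσ hcon

end Loc1

end

end Vale.Agent.P032.H766
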