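import Vale.Agent.P032.H657.Sweep
import Vale.Agent.P032.H766.HistW

/-!
# P032: generic class 0 in the wild frame

Frame `Irr U T` only.  `DO` is the filter of the dense open sets of directions.

* `Gen0 U T z c e a` : at the direction `a` all palettes `T`, `Pal` of the nodes `z + c i * dir a` are locally constant,
  the inner and outer colour sets of `S(z)` at the six class 0 slots `a + n` are locally constant, and for generic `b`
  the palettes of the mixed nodes `z + c i * dir a + e k * dir b` are locally constant in both directions;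
* `exists_gen0` : such `a` exist in every nonempty open set of directions (any further dense open set `S` and any
  finite family of upper semicontinuous functions may be added);
* `Gen0.lst_z`, `Gen0.rst_z` : the letters of `z` before = after at class 0;
* `Gen0.mixed`, `Gen0.ip_mixed` : a mixed node is an interior point of one colour; all letters of the class 0 centres
  `x ≠ z` are one colour `p`, in = out, `p ∉ Pal U x`;
* `Gen0.sweep`, `Gen0.env` : the sweep rules in the units of `dir`.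
-/

open Set Filter Topology Metric

noncomputable section

namespace Vale.Agent.P032.H766

open Vale.Agent.P032.Six Vale.Agent.P032.S5.H767 Vale.Agent.P032.H61 Vale.Agent.P032.H556
  Vale.Agent.P032.H913 Vale.Agent.P032.Words Vale.Agent.P032.H892

variable {U : Fin 6 → Set ℂ} {T : ℂ → Set (Fin 6)}

theorem cont_dir : Continuous dir := continuous_cis.comp (by fun_prop)

theorem dir_mul (x y : ℝ) : dir x * dir y = dir (x + y) := by
  unfold dir
  rw [add_mul, Six.cis_add]

/-! ### the filter of the dense open sets -/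

theorem DO_of {S : Set ℝ} (h1 : IsOpen S) (h2 : Dense S) : S ∈ DO := ⟨S, subset_rfl, h1, h2⟩

theorem lc_DO {k : ℕ} {κ : Type*} [Finite κ] (f : κ → ℝ → Set (Fin k))
    (hf : ∀ i s, ∀ᶠ v in 𝓝 s, f i v ⊆ f i s) : ∀ᶠ v in DO, ∀ i, ∀ᶠ w in 𝓝 v, f i w = f i v :=
  eventually_all.2 fun i => DO_of (lc_open (f i)) (lc_dense (f i) (hf i))

theorem lc_shift {α : Type*} {g : ℝ → α} {v o : ℝ} (h : ∀ᶠ w in 𝓝 v, g (w + o) = g (v + o)) :
    ∀ᶠ w in 𝓝 (v + o), g w = g (v + o) := by
  filter_upwards [(tendsto_sub_o v o).eventually h] with w hw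
  rwa [sub_add_cancel] at hw

/-- the letters of a circle at a generic direction -/
theorem ip_DO (h : Irr U T) (x : ℂ) (o : ℝ) :
    ∀ᶠ v in DO, IP U T x (v + o) (Ins T x (v + o)) (Ots T x (v + o)) := by
  have h1 := lc_DO (κ := Fin 3) (fun i v => if i = 0 then T (pt x (v + o)) else if i = 1 then Ins T x (v + o)
    else Ots T x (v + o)) (by
      intro i s
      fin_cases i
      · have h2 : Continuous fun v : ℝ => pt x (v + o) := (continuous_pt x).comp (by fun_prop)
        exact (h2.tendsto s).eventually (h.nhd _)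
      · exact (tendsto_add_o s o).eventually (usc_ins T x (s + o))
      · exact (tendsto_add_o s o).eventually (usc_ots T x (s + o)))
  filter_upwards [h1] with v hv
  exact ⟨lc_shift (g := fun w => T (pt x w)) (hv 0), fun p => Iff.rfl, fun p => Iff.rfl,
    lc_shift (g := fun w => Ins T x w) (hv 1), lc_shift (g := fun w => Ots T x w) (hv 2)⟩

/-- the letters at the time `s + 6 n` -/
theorem ip_int {x : ℂ} {s : ℝ} (I : IP U T x s (Ins T x s) (Ots T x s)) (n : ℤ) :
    IP U T x (s + 6 * n) (Ins T x (s + 6 * n)) (Ots T x (s + 6 * n)) := by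
  have h1 := I.per n
  have h2 := h1.eqP
  have h3 := h1.eqQ
  rw [h2, h3]
  exact h1

/-- one interior colour: the letter is this colour on both sides -/
theorem ip_pure {x : ℂ} {s : ℝ} {p : Fin 6} (hT : ∀ᶠ w in 𝓝 (pt x s), T w = {p}) : IP U T x s {p} {p} := by
  have hIn : ∀ v, (∀ᶠ w in 𝓝 (pt x v), T w = {p}) → ∀ q,
      q ∈ ({p} : Set (Fin 6)) ↔ ∃ᶠ y in 𝓝 (pt x v), T y = {q} ∧ dist y x < 1 := by
    intro v hv q
    constructor
    · rintro rfl
      exact ((freq_in (dist_pt x v)).and_eventually hv).mono fun y hy => ⟨hy.2, hy.1⟩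
    · intro hq
      obtain ⟨y, ⟨h1, -⟩, h2⟩ := (hq.and_eventually hv).exists
      rw [h1] at h2
      exact h2.subset rfl
  have hOut : ∀ v, (∀ᶠ w in 𝓝 (pt x v), T w = {p}) → ∀ q,
      q ∈ ({p} : Set (Fin 6)) ↔ ∃ᶠ y in 𝓝 (pt x v), T y = {q} ∧ 1 < dist y x := by
    intro v hv q
    constructor
    · rintro rfl
      exact ((freq_out (dist_pt x v)).and_eventually hv).mono fun y hy => ⟨hy.2, hy.1⟩
    · intro hq
      obtain ⟨y, ⟨h1, -⟩, h2⟩ := (hq.and_eventually hv).exists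
      rw [h1] at h2
      exact h2.subset rfl
  have hev : ∀ᶠ v in 𝓝 s, ∀ᶠ w in 𝓝 (pt x v), T w = {p} :=
    (continuous_pt x).continuousAt.eventually hT.eventually_nhds
  refine ⟨?_, hIn s hT, hOut s hT, ?_, ?_⟩
  · filter_upwards [hev] with v hv
    rw [hv.self_of_nhds, hT.self_of_nhds]
  · filter_upwards [hev] with v hv
    exact Set.ext fun q => (hIn v hv q).symm
  · filter_upwards [hev] with v hv
    exact Set.ext fun q => (hOut v hv q).symm

/-! ### two directions -/

theorem nhds_nd {x α β : ℂ} {a b : ℝ} (hne : (α * dir a * (starRingEnd ℂ) (β * dir b)).im ≠ 0) :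
    map (fun q : ℝ × ℝ => x + α * dir q.1 + β * dir q.2) (𝓝 (a, b)) = 𝓝 (x + α * dir a + β * dir b) := by
  have hpi : Real.pi / 3 ≠ 0 := by positivity
  have h1 := H657.nhds_two (c := x) (α := α) (β := β) (a := a * (Real.pi / 3)) (b := b * (Real.pi / 3)) hne
  have h2 := ((Homeomorph.mulRight₀ (Real.pi / 3) hpi).prodCongr
    (Homeomorph.mulRight₀ (Real.pi / 3) hpi)).map_nhds_eq (a, b)
  have h3 : ((Homeomorph.mulRight₀ (Real.pi / 3) hpi).prodCongr
    (Homeomorph.mulRight₀ (Real.pi / 3) hpi)) (a, b) = (a * (Real.pi / 3), b * (Real.pi / 3)) := rfl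
  rw [h3] at h2
  rw [← h2, map_map] at h1
  exact h1

/-- a node with two independent directions at a generic pair of directions -/
theorem pure_nd (h : Irr U T) {x α β : ℂ} {a b : ℝ} (hne : (α * dir a * (starRingEnd ℂ) (β * dir b)).im ≠ 0)
    (hT : ∀ᶠ q : ℝ × ℝ in 𝓝 (a, b), T (x + α * dir q.1 + β * dir q.2) = T (x + α * dir a + β * dir b))
    (hP : ∀ᶠ q : ℝ × ℝ in 𝓝 (a, b), Pal U (x + α * dir q.1 + β * dir q.2) =
      Pal U (x + α * dir a + β * dir b)) :
    ∃ p, (∀ᶠ w in 𝓝 (x + α * dir a + β * dir b), T w = {p}) ∧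
      ∀ j ∈ Pal U (x + α * dir a + β * dir b), x + α * dir a + β * dir b ∈ U j := by
  set y := x + α * dir a + β * dir b with hy
  have hT' : ∀ᶠ w in 𝓝 y, T w = T y := by
    rw [hy, ← nhds_nd hne, eventually_map]
    exact hT
  have hP' : ∀ᶠ w in 𝓝 y, Pal U w = Pal U y := by
    rw [hy, ← nhds_nd hne, eventually_map]
    exact hP
  obtain ⟨i, hi⟩ := h.ne y
  obtain ⟨w, hw1, hw2⟩ := ((h.pure y i hi).and_eventually hT').exists
  refine ⟨i, ?_, ?_⟩
  · filter_upwards [hT'] with v hv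
    rw [hv, ← hw2, hw1]
  · intro i hi
    refine h.int_closure (mem_interior_iff_mem_nhds.2 ?_)
    filter_upwards [hP'] with w hw
    have : i ∈ Pal U w := by rw [hw]; exact hi
    exact this

theorem conj_dir (b : ℝ) : (starRingEnd ℂ) (dir b) = dir (-b) := by
  unfold dir
  rw [neg_mul]
  apply Complex.ext
  · simp only [Complex.conj_re, cis_re, Real.cos_neg]
  · simp only [Complex.conj_im, cis_im, Real.sin_neg]

theorem dir_im (b : ℝ) : (dir b).im = Real.sin (b * (Real.pi / 3)) := by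
  unfold dir; rw [cis_im]

theorem dir_zero' : dir 0 = 1 := by
  unfold dir
  rw [zero_mul]
  apply Complex.ext
  · rw [cis_re, Real.cos_zero, Complex.one_re]
  · rw [cis_im, Real.sin_zero, Complex.one_im]

/-- generic directions are not parallel to a given vector -/
theorem im_DO {w : ℂ} (hw : w ≠ 0) : ∀ᶠ b in DO, (w * (starRingEnd ℂ) (dir b)).im ≠ 0 := by
  refine DO_of ?_ ?_
  · have h1 : Continuous fun b : ℝ => (w * (starRingEnd ℂ) (dir b)).im :=
      Complex.continuous_im.comp (continuous_const.mul (Complex.continuous_conj.comp cont_dir))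
    exact isOpen_ne_fun h1 continuous_const
  · rw [dense_iff_inter_open]
    intro O hO hne
    obtain ⟨v, hv⟩ := hne
    obtain ⟨d, hd, hs⟩ := (mem_nhdsGT_iff_exists_Ioo_subset (a := v)).1
      (mem_nhdsWithin_of_mem_nhds (hO.mem_nhds hv))
    have hd : v < d := hd
    obtain ⟨b1, h1, h1'⟩ := exists_between (lt_min hd (show v < v + 1 by linarith))
    obtain ⟨b2, h2, h2'⟩ := exists_between h1'
    have hb1 : b1 ∈ O := hs ⟨h1, h1'.trans_le (min_le_left _ _)⟩
    have hb2 : b2 ∈ O := hs ⟨h1.trans h2, h2'.trans_le (min_le_left _ _)⟩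
    have h12 : b2 - b1 < 1 := by
      have := h2'.trans_le (min_le_right d (v + 1))
      linarith
    by_contra hcon
    rw [not_nonempty_iff_eq_empty] at hcon
    have k1 : (w * (starRingEnd ℂ) (dir b1)).im = 0 := by
      by_contra h3
      have : b1 ∈ O ∩ {b | (w * (starRingEnd ℂ) (dir b)).im ≠ 0} := ⟨hb1, h3⟩
      rw [hcon] at this
      exact this
    have k2 : (w * (starRingEnd ℂ) (dir b2)).im = 0 := by
      by_contra h3
      have : b2 ∈ O ∩ {b | (w * (starRingEnd ℂ) (dir b)).im ≠ 0} := ⟨hb2, h3⟩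
      rw [hcon] at this
      exact this
    set r := (w * (starRingEnd ℂ) (dir b1)).re with hr
    have e1 : w * (starRingEnd ℂ) (dir b1) = (r : ℂ) := Complex.ext (by simp [hr]) (by simpa using k1)
    have e2 : w = r * dir b1 := by
      have : w * (starRingEnd ℂ) (dir b1) * dir b1 = r * dir b1 := by rw [e1]
      rw [conj_dir, mul_assoc, dir_mul, neg_add_cancel, dir_zero', mul_one] at this
      exact this
    rw [e2, conj_dir, mul_assoc, dir_mul, Complex.im_ofReal_mul, dir_im] at k2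
    have hpi := Real.pi_pos
    have hs0 : Real.sin ((b1 + -b2) * (Real.pi / 3)) < 0 := by
      have h3 : (b1 + -b2) * (Real.pi / 3) = -((b2 - b1) * (Real.pi / 3)) := by ring
      rw [h3, Real.sin_neg, neg_lt_zero]
      refine Real.sin_pos_of_pos_of_lt_pi (by have : 0 < b2 - b1 := by linarith
                                              positivity) ?_
      nlinarith
    rcases mul_eq_zero.1 k2 with h3 | h3
    · apply hw
      rw [e2, h3, Complex.ofReal_zero, zero_mul]
    · exact absurd h3 hs0.ne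

/-! ### generic directions -/

section
variable {z : ℂ} {ι κ : Type*} {c : ι → ℂ} {e : κ → ℂ} {a : ℝ}

/-- **generic class 0** -/
structure Gen0 (U : Fin 6 → Set ℂ) (T : ℂ → Set (Fin 6)) (z : ℂ) {ι κ : Type*} (c : ι → ℂ) (e : κ → ℂ)
    (a : ℝ) : Prop where
  /-- the palettes of the class 0 nodes -/
  nT : ∀ i, ∀ᶠ v in 𝓝 a, T (z + c i * dir v) = T (z + c i * dir a)
  nP : ∀ i, ∀ᶠ v in 𝓝 a, Pal U (z + c i * dir v) = Pal U (z + c i * dir a)
  /-- the letters of `z` at the class 0 slots -/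
  lz : ∀ n : ℤ, IP U T z (a + n) (Ins T z (a + n)) (Ots T z (a + n))
  /-- the mixed nodes -/
  mx : ∀ᶠ b in DO, ∀ i k,
    (∀ᶠ q : ℝ × ℝ in 𝓝 (a, b), T (z + c i * dir q.1 + e k * dir q.2) = T (z + c i * dir a + e k * dir b)) ∧
    ∀ᶠ q : ℝ × ℝ in 𝓝 (a, b), Pal U (z + c i * dir q.1 + e k * dir q.2) = Pal U (z + c i * dir a + e k * dir b)

theorem usc_T (h : Irr U T) {g : ℝ → ℂ} (hg : Continuous g) (s : ℝ) : ∀ᶠ v in 𝓝 s, T (g v) ⊆ T (g s) :=
  hg.continuousAt.eventually (h.nhd _)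

/-- the generic directions for the class 0 data form a set of `DO` -/
theorem gen0_DO (h : Irr U T) (z : ℂ) [Finite ι] (c : ι → ℂ) : ∀ᶠ a in DO,
    (∀ i, ∀ᶠ v in 𝓝 a, T (z + c i * dir v) = T (z + c i * dir a)) ∧
    (∀ i, ∀ᶠ v in 𝓝 a, Pal U (z + c i * dir v) = Pal U (z + c i * dir a)) ∧
    ∀ n : ℤ, IP U T z (a + n) (Ins T z (a + n)) (Ots T z (a + n)) := by
  have hc : ∀ i, Continuous fun v : ℝ => z + c i * dir v := fun i =>
    continuous_const.add (continuous_const.mul cont_dir)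
  have h1 := lc_DO (fun i v => T (z + c i * dir v)) fun i s => usc_T h (hc i) s
  have h2 := lc_DO (fun i v => Pal U (z + c i * dir v)) fun i s => (hc i).continuousAt.eventually (pal_nhd U _)
  have h3 : ∀ᶠ a in DO, ∀ m : Fin 6, IP U T z (a + m.val) (Ins T z (a + m.val)) (Ots T z (a + m.val)) :=
    eventually_all.2 fun m => ip_DO h z m.val
  filter_upwards [h1, h2, h3] with a k1 k2 k3
  refine ⟨k1, k2, fun n => ?_⟩
  have h6 := Int.emod_add_mul_ediv n 6
  have h7 := Int.emod_lt_of_pos n (show (0 : ℤ) < 6 by norm_num)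
  have h8 := Int.emod_nonneg n (show (6 : ℤ) ≠ 0 by norm_num)
  have h9 := ip_int (k3 ⟨(n % 6).toNat, by omega⟩) (n / 6)
  have h10 : a + (((⟨(n % 6).toNat, by omega⟩ : Fin 6) : ℕ) : ℝ) + 6 * ((n / 6 : ℤ) : ℝ) = a + n := by
    have h11 : (((n % 6).toNat : ℤ) : ℝ) + 6 * ((n / 6 : ℤ) : ℝ) = n := by
      rw [Int.toNat_of_nonneg h8]; exact_mod_cast h6
    rw [add_assoc, ← h11]
    rfl
  rw [h10] at h9
  exact h9

/-- the generic directions for the mixed nodes are dense -/
theorem mixed_dense (h : Irr U T) (z : ℂ) [Finite ι] [Finite κ] (c : ι → ℂ) (e : κ → ℂ) :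
    Dense {a : ℝ | ∀ᶠ b in DO, ∀ i k,
      (∀ᶠ q : ℝ × ℝ in 𝓝 (a, b), T (z + c i * dir q.1 + e k * dir q.2) =
        T (z + c i * dir a + e k * dir b)) ∧
      ∀ᶠ q : ℝ × ℝ in 𝓝 (a, b), Pal U (z + c i * dir q.1 + e k * dir q.2) =
        Pal U (z + c i * dir a + e k * dir b)} := by
  have hc : ∀ j : ι × κ, Continuous fun q : ℝ × ℝ => z + c j.1 * dir q.1 + e j.2 * dir q.2 := fun j =>
    (continuous_const.add (continuous_const.mul (cont_dir.comp continuous_fst))).add
      (continuous_const.mul (cont_dir.comp continuous_snd))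
  obtain ⟨h1, h2⟩ := h.dense_lc hc
  refine (H657.dense_section h2 h1).mono fun a ha => ?_
  have ha : Dense {b : ℝ | (a, b) ∈ ⋂ i : ι × κ, LcP U (fun q : ℝ × ℝ => z + c i.1 * dir q.1 + e i.2 * dir q.2) ∩
    LcT T (fun q : ℝ × ℝ => z + c i.1 * dir q.1 + e i.2 * dir q.2)} := ha
  refine ⟨_, fun b hb i k => ?_, h2.preimage (by fun_prop : Continuous fun b : ℝ => (a, b)), ha⟩
  have hb : (a, b) ∈ ⋂ i : ι × κ, LcP U (fun q : ℝ × ℝ => z + c i.1 * dir q.1 + e i.2 * dir q.2) ∩
    LcT T (fun q : ℝ × ℝ => z + c i.1 * dir q.1 + e i.2 * dir q.2) := hb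
  rw [mem_iInter] at hb
  exact ⟨(hb (i, k)).2, (hb (i, k)).1⟩

/-- **Existence of a generic class 0** in every nonempty open set of directions; `S` is any further dense open set,
`f` any further finite family of upper semicontinuous functions. -/
theorem exists_gen0 (h : Irr U T) (z : ℂ) [Finite ι] [Finite κ] (c : ι → ℂ) (e : κ → ℂ) {μ : Type*} [Finite μ]
    {k : ℕ} (f : μ → ℝ → Set (Fin k)) (hf : ∀ i s, ∀ᶠ v in 𝓝 s, f i v ⊆ f i s) {S : Set ℝ} (hS : S ∈ DO)
    {O : Set ℝ} (hO : IsOpen O) (hne : O.Nonempty) :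
    ∃ a ∈ O, a ∈ S ∧ Gen0 U T z c e a ∧ ∀ i, ∀ᶠ v in 𝓝 a, f i v = f i a := by
  obtain ⟨G, hG, hGo, hGd⟩ := inter_mem (inter_mem (gen0_DO h z c) (lc_DO f hf)) hS
  obtain ⟨a0, ha0⟩ := dense_iff_inter_open.1 hGd O hO hne
  obtain ⟨a, ha, haM⟩ := dense_iff_inter_open.1 (mixed_dense h z c e) (O ∩ G) (hO.inter hGo) ⟨a0, ha0⟩
  obtain ⟨⟨⟨k1, k2, k3⟩, k4⟩, k5⟩ := hG ha.2
  exact ⟨a, ha.1, k5, ⟨k1, k2, k3, haM⟩, k4⟩

namespace Gen0
variable (g : Gen0 U T z c e a)
include g

/-- the palette of the class 0 neighbours is the letter -/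
theorem union (h : Irr U T) (n : ℤ) : T (pt z (a + n)) = Ins T z (a + n) ∪ Ots T z (a + n) := (g.lz n).union h

/-- **mixed nodes are interior points of one colour** -/
theorem mixed [Finite ι] [Finite κ] (h : Irr U T) : ∀ᶠ b in DO, ∀ i k, c i ≠ 0 → e k ≠ 0 →
    ∃ p, (∀ᶠ w in 𝓝 (z + c i * dir a + e k * dir b), T w = {p}) ∧
      ∀ j ∈ Pal U (z + c i * dir a + e k * dir b), z + c i * dir a + e k * dir b ∈ U j := by
  have h1 : ∀ᶠ b in DO, ∀ i k, c i ≠ 0 → e k ≠ 0 →
      (c i * dir a * (starRingEnd ℂ) (e k * dir b)).im ≠ 0 := by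
    refine eventually_all.2 fun i => eventually_all.2 fun k => ?_
    by_cases hi : c i = 0
    · exact Eventually.of_forall fun b h1 => absurd hi h1
    by_cases hk : e k = 0
    · exact Eventually.of_forall fun b _ h1 => absurd hk h1
    have hw : c i * dir a * (starRingEnd ℂ) (e k) ≠ 0 :=
      mul_ne_zero (mul_ne_zero hi (dir_ne a)) ((map_ne_zero _).2 hk)
    filter_upwards [im_DO hw] with b hb _ _
    rw [map_mul, ← mul_assoc]
    exact hb
  filter_upwards [h1, g.mx] with b k1 k2 i k hi hk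
  exact pure_nd h (k1 i k hi hk) (k2 i k).1 (k2 i k).2

/-- **all letters of the class 0 centres `x ≠ z` are one colour**, the same inside and outside; it is not in `Pal x` -/
theorem ip_mixed [Finite ι] [Finite κ] (h : Irr U T) : ∀ᶠ b in DO, ∀ i k, c i ≠ 0 → ∀ o : ℝ, e k = dir o →
    ∃ p, IP U T (z + c i * dir a) (b + o) {p} {p} ∧ p ∉ Pal U (z + c i * dir a) ∧
      ∀ᶠ w in 𝓝 (pt (z + c i * dir a) (b + o)), T w = {p} := by
  filter_upwards [g.mixed h] with b hb i k hi o ho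
  have hk : e k ≠ 0 := by rw [ho]; exact dir_ne o
  obtain ⟨p, h1, h2⟩ := hb i k hi hk
  have e1 : z + c i * dir a + e k * dir b = pt (z + c i * dir a) (b + o) := by
    rw [ho, dir_mul, add_comm o b, pt_eq]
  rw [e1] at h1 h2
  refine ⟨p, ip_pure h1, ?_, h1⟩
  have h3 : pt (z + c i * dir a) (b + o) ∈ U p := h.mem_of_single h1.self_of_nhds.subset
  intro h4
  exact h.mx.notMem' h3 (dist_pt _ _) h4

/-- the colours of a class 0 node, in radians -/
theorem ev_cis {i : ι} {q : Fin 6} (hq : q ∈ Pal U (z + c i * dir a)) :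
    ∀ᶠ b' in 𝓝 (a * (Real.pi / 3)), q ∈ Pal U (z + c i * cis b') := by
  have hpi := Real.pi_pos
  have h1 : Tendsto (fun b' : ℝ => b' * (3 / Real.pi)) (𝓝 (a * (Real.pi / 3))) (𝓝 a) := by
    have h2 : Continuous fun b' : ℝ => b' * (3 / Real.pi) := by fun_prop
    have h3 := h2.tendsto (a * (Real.pi / 3))
    rwa [show a * (Real.pi / 3) * (3 / Real.pi) = a by field_simp] at h3
  filter_upwards [h1.eventually (g.nP i)] with b' hb
  have e1 : dir (b' * (3 / Real.pi)) = cis b' := by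
    unfold dir
    rw [show b' * (3 / Real.pi) * (Real.pi / 3) = b' by field_simp]
  rw [← e1, hb]
  exact hq

/-- **Sweep**: a colour in `Pal` of the class 0 node `x = z + c i * dir a` is absent from every point at distance one
which is not on the line through `z` and `x` -/
theorem sweep (h : Irr U T) {i : ι} {q : Fin 6} (hq : q ∈ Pal U (z + c i * dir a)) {w : ℂ}
    (hw : dist (z + c i * dir a) w = 1)
    (hne : ((w - (z + c i * dir a)) * (starRingEnd ℂ) (c i * dir a)).im ≠ 0) : q ∉ Pal U w :=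
  H657.sweep h.mx (g.ev_cis hq) hw hne

/-- **Envelopes**: on the line through `z` and `x = z + c i * dir a` the point `w0 = z + μ * (c i * dir a)` at distance one
from `x`: near `w0` the colours of `Pal x` are absent from all points at distance less than one from the circle of
`x` about `z` -/
theorem env (h : Irr U T) {i : ι} {q : Fin 6} (hq : q ∈ Pal U (z + c i * dir a)) {μ : ℝ} (hμ : 0 < μ)
    (hc : c i ≠ 0) (hρ : |μ - 1| * ‖c i‖ = 1) :
    ∀ᶠ w in 𝓝 (z + μ * (c i * dir a)), |dist w z - ‖c i‖| < 1 → q ∉ Pal U w :=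
  H657.env h.mx hμ hc hρ (g.ev_cis hq)

end Gen0

/-! ### states -/

section states
variable {S : Type*} {P : ℝ → S → Prop} {Q : S → Prop} {u : ℝ}

/-- a property of all generic states is a property of all one sided states -/
theorem lst_of_DO (hQ : ∀ᶠ v in DO, ∀ σ, P v σ → Q σ) : ∀ σ ∈ LSt DO P u, Q σ := by
  intro σ hσ
  have hσ : ∃ᶠ v in 𝓝[<] u ⊓ DO, P v σ := hσ
  obtain ⟨v, h1, h2⟩ := (hσ.and_eventually (hQ.filter_mono inf_le_right)).exists
  exact h2 σ h1

theorem rst_of_DO (hQ : ∀ᶠ v in DO, ∀ σ, P v σ → Q σ) : ∀ σ ∈ RSt DO P u, Q σ := by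
  intro σ hσ
  have hσ : ∃ᶠ v in 𝓝[>] u ⊓ DO, P v σ := hσ
  obtain ⟨v, h1, h2⟩ := (hσ.and_eventually (hQ.filter_mono inf_le_right)).exists
  exact h2 σ h1

variable {M : Type*} {X : M → ℂ} {off : M → ℝ} {σ : M → Set (Fin 6) × Set (Fin 6)}

/-- a node whose letter is locally constant at `u + off i`: all left and right states have this letter -/
theorem lst_ip {i : M} {A B : Set (Fin 6)} (I : IP U T (X i) (u + off i) A B)
    (hσ : σ ∈ LSt DO (IPs U T X off) u) : σ i = (A, B) := by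
  have hσ : ∃ᶠ v in 𝓝[<] u ⊓ DO, IPs U T X off v σ := hσ
  have h1 : ∀ᶠ v in 𝓝[<] u ⊓ DO, IP U T (X i) (v + off i) A B :=
    (((tendsto_add_o u (off i)).eventually (ip_op I)).filter_mono nhdsWithin_le_nhds).filter_mono inf_le_left
  obtain ⟨v, h2, h3⟩ := (hσ.and_eventually h1).exists
  obtain ⟨e1, e2⟩ := ip_unique (h2 i) h3
  exact Prod.ext e1 e2

theorem rst_ip {i : M} {A B : Set (Fin 6)} (I : IP U T (X i) (u + off i) A B)
    (hσ : σ ∈ RSt DO (IPs U T X off) u) : σ i = (A, B) := by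
  have hσ : ∃ᶠ v in 𝓝[>] u ⊓ DO, IPs U T X off v σ := hσ
  have h1 : ∀ᶠ v in 𝓝[>] u ⊓ DO, IP U T (X i) (v + off i) A B :=
    (((tendsto_add_o u (off i)).eventually (ip_op I)).filter_mono nhdsWithin_le_nhds).filter_mono inf_le_left
  obtain ⟨v, h2, h3⟩ := (hσ.and_eventually h1).exists
  obtain ⟨e1, e2⟩ := ip_unique (h2 i) h3
  exact Prod.ext e1 e2

namespace Gen0
variable (g : Gen0 U T z c e a)
include g

/-- **the letters of `z` after class 0**: node `i` of `z` with an integer shift -/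
theorem rst_z {i : M} (hi : X i = z) {n : ℤ} (ho : off i = n) (hσ : σ ∈ RSt DO (IPs U T X off) a) :
    σ i = (Ins T z (a + n), Ots T z (a + n)) := by
  have I := g.lz n
  refine rst_ip (i := i) ?_ hσ
  rw [hi, ho]; exact I

/-- **the letters of `z` before class 0 + 60 degrees** -/
theorem lst_z {i : M} (hi : X i = z) {n : ℤ} (ho : off i = n) (hσ : σ ∈ LSt DO (IPs U T X off) (a + 1)) :
    σ i = (Ins T z (a + ((n + 1 : ℤ) : ℝ)), Ots T z (a + ((n + 1 : ℤ) : ℝ))) := by
  have I := g.lz (n + 1)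
  refine lst_ip (i := i) ?_ hσ
  rw [hi, ho, show a + 1 + (n : ℝ) = a + ((n + 1 : ℤ) : ℝ) by push_cast; ring]
  exact I

/-- **letters of the class 0 centres `x ≠ z`**, left states at any time -/
theorem lst_mixed [Finite ι] [Finite κ] (h : Irr U T) {i : M} {j : ι} (hj : c j ≠ 0)
    (hi : X i = z + c j * dir a) {k : κ} (hk : e k = dir (off i)) (hσ : σ ∈ LSt DO (IPs U T X off) u) :
    ∃ p, σ i = ({p}, {p}) ∧ p ∉ Pal U (X i) := by
  refine lst_of_DO (P := IPs U T X off) (Q := fun σ => ∃ p, σ i = ({p}, {p}) ∧ p ∉ Pal U (X i)) ?_ σ hσ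
  filter_upwards [g.ip_mixed h] with v hv σ hσ
  obtain ⟨p, h1, h2, -⟩ := hv j k hj (off i) hk
  rw [← hi] at h1 h2
  obtain ⟨e1, e2⟩ := ip_unique (hσ i) h1
  exact ⟨p, Prod.ext e1 e2, h2⟩

/-- **letters of the class 0 centres `x ≠ z`**, right states at any time -/
theorem rst_mixed [Finite ι] [Finite κ] (h : Irr U T) {i : M} {j : ι} (hj : c j ≠ 0)
    (hi : X i = z + c j * dir a) {k : κ} (hk : e k = dir (off i)) (hσ : σ ∈ RSt DO (IPs U T X off) u) :
    ∃ p, σ i = ({p}, {p}) ∧ p ∉ Pal U (X i) := by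
  refine rst_of_DO (P := IPs U T X off) (Q := fun σ => ∃ p, σ i = ({p}, {p}) ∧ p ∉ Pal U (X i)) ?_ σ hσ
  filter_upwards [g.ip_mixed h] with v hv σ hσ
  obtain ⟨p, h1, h2, -⟩ := hv j k hj (off i) hk
  rw [← hi] at h1 h2
  obtain ⟨e1, e2⟩ := ip_unique (hσ i) h1
  exact ⟨p, Prod.ext e1 e2, h2⟩

end Gen0

end states

/-! ### exact arcs -/

/-- the directions of an exact arc contain an open interval -/
theorem arc_open {p : ℂ} {C : Set (Fin 6)} (hp : Arc T z p C) :
    ∃ O : Set ℝ, IsOpen O ∧ O.Nonempty ∧ ∀ v ∈ O, T (pt z v) = C := by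
  obtain ⟨t0, ht0⟩ := exists_cis (u := p - z) (by rw [← dist_eq_norm]; exact hp.1)
  have hpi : (0 : ℝ) < Real.pi := Real.pi_pos
  have hpt : p = pt z (t0 * (3 / Real.pi)) := by
    unfold pt
    rw [show t0 * (3 / Real.pi) * (Real.pi / 3) = t0 by field_simp, ← ht0]
    ring
  have hloc : ∀ᶠ v in 𝓝 (t0 * (3 / Real.pi)), T (pt z v) = C := by
    have h1 := hp.2
    rw [hpt] at h1
    have h2 : Tendsto (pt z) (𝓝 (t0 * (3 / Real.pi))) (𝓝[sphere z 1] (pt z (t0 * (3 / Real.pi)))) :=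
      tendsto_nhdsWithin_of_tendsto_nhds_of_eventually_within _ (continuous_pt z).continuousAt
        (Eventually.of_forall fun v => dist_pt z v)
    exact h2.eventually h1
  obtain ⟨O, hO, hOo, hOm⟩ := _root_.mem_nhds_iff.1 hloc
  exact ⟨O, hOo, ⟨_, hOm⟩, hO⟩

/-- **generic class 0 inside an exact arc** -/
theorem exists_gen0_arc (h : Irr U T) [Finite ι] [Finite κ] (c : ι → ℂ) (e : κ → ℂ) {μ : Type*} [Finite μ]
    {k : ℕ} (f : μ → ℝ → Set (Fin k)) (hf : ∀ i s, ∀ᶠ v in 𝓝 s, f i v ⊆ f i s) {S : Set ℝ} (hS : S ∈ DO)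
    {p : ℂ} {C : Set (Fin 6)} (hp : Arc T z p C) :
    ∃ a ∈ S, Gen0 U T z c e a ∧ (∀ i, ∀ᶠ v in 𝓝 a, f i v = f i a) ∧ Ins T z a ∪ Ots T z a = C := by
  obtain ⟨O, hO, hne, hC⟩ := arc_open hp
  obtain ⟨a, haO, haS, hg, hfa⟩ := exists_gen0 h z c e f hf hS hO hne
  refine ⟨a, haS, hg, hfa, ?_⟩
  have h1 := hg.union h 0
  rw [Int.cast_zero, add_zero] at h1
  rw [← h1]
  exact hC a haO

end

end Vale.Agent.P032.H766
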