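import Vale.Agent.P032.H139.Lrat
import Vale.Agent.P032.H89.Sys7

/-!
# P032, alternating points, isolated switching direction: the finite system with sides

`SysI m N Q`: seven nodes (`none` = z, `some k` = V_k), states of the two sides of the switching
direction (`Q true` : right, `Q false` : left).  `Fr T Q` is the same system with numbers: node `0`
= z, node `k + 1` = V_k, slots and colours `< 6`, sides `0` = left, `1` = right, `m = 5`; all rules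
are given by tables (so that the symmetries are checked by `decide`).
-/

namespace Vale.Agent.P032.H766.Iso

open Vale.Agent.P032.H89 (State)

/-! ### Geometric form -/

/-- some state of the side `t` has a letter at `(p, d)` disjoint from `W` -/
def Av (Q : Bool → Set State) (p : Option (Fin 6)) (d : Fin 6) (t : Bool) (W : Set (Fin 6)) : Prop :=
  ∃ σ ∈ Q t, Disjoint (σ p d) W

/-- node palettes `N`, states `Q t` of the side `t` -/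
structure SysI (m : Fin 6) (N : Option (Fin 6) → Set (Fin 6)) (Q : Bool → Set State) : Prop where
  nz : N none = {m}ᶜ
  nv : ∀ k, m ∈ N (some k)
  nv' : ∀ k, ∃ c, c ∉ N (some k)
  some_ : ∀ t, (Q t).Nonempty
  ne : ∀ t, ∀ σ ∈ Q t, ∀ p j, (σ p j).Nonempty
  hex : ∀ t, ∀ σ ∈ Q t, ∀ p j, Disjoint (σ p j) (σ p (j + 1))
  inz : ∀ t, ∀ σ ∈ Q t, ∀ k, σ none k ⊆ N (some k)
  inv : ∀ t, ∀ σ ∈ Q t, ∀ k, σ (some k) (k + 3) ⊆ N none
  inr : ∀ t, ∀ σ ∈ Q t, ∀ k, σ (some k) (k + 2) ⊆ N (some (k + 1))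
  inl : ∀ t, ∀ σ ∈ Q t, ∀ k, σ (some k) (k - 2) ⊆ N (some (k - 1))
  two : ∀ t, ∀ σ ∈ Q t, ∀ p j, ∀ c ∈ σ p j, c ∈ N p → ∃ d ∈ σ p j, d ≠ c
  gap : ∀ t, ∀ σ ∈ Q t, ∀ p j c, ∃ d ∈ N p, d ∉ σ p j ∧ d ≠ c
  rz : ∀ t, ∀ σ ∈ Q t, ∀ k j, Disjoint (σ none j) (σ (some k) j)
  rv : ∀ t, ∀ σ ∈ Q t, ∀ k j, Disjoint (σ (some k) j) (σ (some (k + 1)) j)
  /-- right side: `m` at the even slots, left side: `m` at the odd slots -/
  ty : ∀ t, ∀ σ ∈ Q t, ∀ j : Fin 6, m ∈ σ none j ↔ (Even j.val ↔ t = true)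
  biex : ∀ t t', ∀ σ ∈ Q t, ∀ σ' ∈ Q t', ∀ p j j', σ p j ⊆ N p → σ' p j' ⊆ N p →
    ¬ Disjoint (σ p j) (σ' p j')
  deg : ∀ p, 4 ≤ (N p).ncard → ∀ a ∈ N p, ∃ d e, d ∈ N p ∧ e ∈ N p ∧ d ≠ a ∧ e ≠ a ∧ d ≠ e ∧
    ∀ t, ∀ σ ∈ Q t, ∀ j, σ p j ≠ {a, d} ∧ σ p j ≠ {a, e}
  /-- no letter of the node `q` is inside a letter of a circle of another node near `q` -/
  r7 : ∀ t t', ∀ σ ∈ Q t, ∀ σ' ∈ Q t', ∀ k j,
    ¬ (σ' (some k) j ⊆ σ none k) ∧ ¬ (σ' none j ⊆ σ (some k) (k + 3)) ∧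
    ¬ (σ' (some (k + 1)) j ⊆ σ (some k) (k + 2)) ∧ ¬ (σ' (some (k - 1)) j ⊆ σ (some k) (k - 2))
  /-- a colour `a` of z lives in a sector or cusp; `I K` = inside the unit disc about `V_K` -/
  s3 : ∀ a, a ≠ m → ∃ I : Fin 6 → Bool,
    ((∃ w, ∀ K, I K = true ↔ K = w ∨ K = w + 1 ∨ K = w + 2) ∨
      (∃ w, ∀ K, I K = true ↔ K = w + 1 ∨ K = w + 2)) ∧
    ∀ K, Av Q (some (K - 1)) (K + 1) (!I K) {a} ∧ Av Q (some (K + 1)) (K - 1) (I K) {a}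
  /-- letters of `S(V_k)` at z -/
  s1 : ∀ t, ∀ σ ∈ Q t, ∀ k K, K ≠ k → ∀ i : Bool,
    (i = true ↔ (t = true ∧ (K = k + 4 ∨ K = k + 5)) ∨ (t = false ∧ (K = k + 1 ∨ K = k + 2))) →
    Av Q (some (K - 1)) (K + 1) (!i) (σ (some k) (k + 3)) ∧
      Av Q (some (K + 1)) (K - 1) i (σ (some k) (k + 3))
  /-- letters of `S(V_k)` at `V_K`, `K = k + 1` -/
  s2r : ∀ t, ∀ σ ∈ Q t, ∀ k K, K = k + 1 →
    Av Q (some (K - 1)) (K + 2) t (σ (some k) (k + 2)) ∧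
    Av Q (some (K - 2)) (K + 1) t (σ (some k) (k + 2)) ∧
    Av Q (some (K + 1)) (K + 4) (!t) (σ (some k) (k + 2)) ∧
    Av Q (some (K + 2)) (K + 5) (!t) (σ (some k) (k + 2)) ∧
    Av Q (some (K + 2)) K t (σ (some k) (k + 2))
  /-- letters of `S(V_k)` at `V_K`, `K = k - 1` -/
  s2l : ∀ t, ∀ σ ∈ Q t, ∀ k K, K = k - 1 →
    Av Q (some (K - 1)) (K + 2) (!t) (σ (some k) (k - 2)) ∧
    Av Q (some (K - 2)) (K + 1) (!t) (σ (some k) (k - 2)) ∧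
    Av Q (some (K + 1)) (K + 4) t (σ (some k) (k - 2)) ∧
    Av Q (some (K + 2)) (K + 5) t (σ (some k) (k - 2)) ∧
    Av Q (some (K - 2)) K t (σ (some k) (k - 2))

end Vale.Agent.P032.H766.Iso
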