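import Vale.Agent.P032.H766.IsoDef

/-!
# P032, isolated switching direction: the system in numbers, global literals and clauses

Node `0` = z, node `k + 1` = V_k, slots and colours `< 6`, sides `0` = left, `1` = right, `m = 5`.

A global literal has the code `kind + 8 p + 128 d + 1024 t + 2048 S` (`S` a mask of colours):
* kind `0` : `S` inside the palette of the node `p`,
* kind `1` : `S` is an exact letter of the node `p`,
* kind `2` : some state of the side `t` has letter `(p, d)` disjoint from `S`,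
* kind `3` : some state of the side `t` has letter `(p, d)` containing `S`,
* kind `4` : some letter of the node `p` (any slot, any side) is inside `S`,
* kind `5` : the colours `S` can live in the region number `p` at z.
A clause is a list of signed literals `2 * code` (positive), `2 * code + 1` (negated).
-/

namespace Vale.Agent.P032.H766.Iso

/-- six letters for each node, by numbers -/
abbrev St : Type := ℕ → ℕ → ℕ → Prop

/-- `(p, j, q)` : the slot `j` of the node `p` is directed to the node `q` -/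
def inRows : List (ℕ × ℕ × ℕ) := (List.range 6).flatMap fun k =>
  [(0, k, k + 1), (k + 1, (k + 3) % 6, 0), (k + 1, (k + 2) % 6, 1 + (k + 1) % 6),
    (k + 1, (k + 4) % 6, 1 + (k + 5) % 6)]

/-- `(p, j, q, j')` : the letters `(p, j)` and `(q, j')` are disjoint -/
def disRows : List (ℕ × ℕ × ℕ × ℕ) :=
  ((List.range 7).flatMap fun p => (List.range 6).flatMap fun j =>
    [(p, j, p, (j + 1) % 6), (p, (j + 1) % 6, p, j)]) ++
  (inRows.flatMap fun r => (List.range 6).map fun j => (r.1, j, r.2.2, j))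

/-- rows of `s1`, `s2r`, `s2l` : `(p0, d0, t0, p, d, t)` -/
def avRows : List (ℕ × ℕ × ℕ × ℕ × ℕ × ℕ) :=
  ((List.range 2).flatMap fun t => (List.range 6).flatMap fun k => [0, 1, 3, 4].flatMap fun i =>
    let K := (k + 1 + i) % 6
    let ins := if t = 1 then (if i = 3 ∨ i = 4 then 1 else 0) else (if i = 0 ∨ i = 1 then 1 else 0)
    [(k + 1, (k + 3) % 6, t, 1 + (K + 5) % 6, (K + 1) % 6, 1 - ins),
      (k + 1, (k + 3) % 6, t, 1 + (K + 1) % 6, (K + 5) % 6, ins)]) ++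
  ((List.range 2).flatMap fun t => (List.range 6).flatMap fun k =>
    let K := (k + 1) % 6
    [(k + 1, (k + 2) % 6, t, 1 + (K + 5) % 6, (K + 2) % 6, t),
      (k + 1, (k + 2) % 6, t, 1 + (K + 4) % 6, (K + 1) % 6, t),
      (k + 1, (k + 2) % 6, t, 1 + (K + 1) % 6, (K + 4) % 6, 1 - t),
      (k + 1, (k + 2) % 6, t, 1 + (K + 2) % 6, (K + 5) % 6, 1 - t),
      (k + 1, (k + 2) % 6, t, 1 + (K + 2) % 6, K, t)]) ++
  ((List.range 2).flatMap fun t => (List.range 6).flatMap fun k =>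
    let K := (k + 5) % 6
    [(k + 1, (k + 4) % 6, t, 1 + (K + 5) % 6, (K + 2) % 6, 1 - t),
      (k + 1, (k + 4) % 6, t, 1 + (K + 4) % 6, (K + 1) % 6, 1 - t),
      (k + 1, (k + 4) % 6, t, 1 + (K + 1) % 6, (K + 4) % 6, t),
      (k + 1, (k + 4) % 6, t, 1 + (K + 2) % 6, (K + 5) % 6, t),
      (k + 1, (k + 4) % 6, t, 1 + (K + 4) % 6, K, t)])

/-- is the region `r` inside the disc about `V_K`?  `r < 6` : sector, `6 ≤ r < 12` : cusp -/
def inReg (r K : ℕ) : Bool :=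
  if r < 6 then K == r || K == (r + 1) % 6 || K == (r + 2) % 6
  else K == (r + 1) % 6 || K == (r + 2) % 6

/-- demands `(p, d, t)` of the region `r` -/
def regRow (r : ℕ) : List (ℕ × ℕ × ℕ) := (List.range 6).flatMap fun K =>
  [(1 + (K + 5) % 6, (K + 1) % 6, if inReg r K then 0 else 1),
    (1 + (K + 1) % 6, (K + 5) % 6, if inReg r K then 1 else 0)]

/-- the system in numbers -/
structure Fr (T : ℕ → ℕ → Prop) (Q : ℕ → St → Prop) : Prop where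
  z5 : ∀ c < 6, T 0 c ↔ c ≠ 5
  v5 : ∀ p < 7, p ≠ 0 → T p 5
  vn : ∀ p < 7, ∃ c < 6, ¬ T p c
  some_ : ∀ t < 2, ∃ σ, Q t σ
  ne : ∀ t < 2, ∀ σ, Q t σ → ∀ p < 7, ∀ j < 6, ∃ c < 6, σ p j c
  dis : ∀ r ∈ disRows, ∀ t < 2, ∀ σ, Q t σ → ∀ c < 6, σ r.1 r.2.1 c → ¬ σ r.2.2.1 r.2.2.2 c
  inn : ∀ r ∈ inRows, ∀ t < 2, ∀ σ, Q t σ → ∀ c < 6, σ r.1 r.2.1 c → T r.2.2 c
  two : ∀ t < 2, ∀ σ, Q t σ → ∀ p < 7, ∀ j < 6, ∀ c < 6, σ p j c → T p c →
    ∃ d < 6, d ≠ c ∧ σ p j d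
  gap : ∀ t < 2, ∀ σ, Q t σ → ∀ p < 7, ∀ j < 6, ∀ c < 6, ∃ d < 6, d ≠ c ∧ T p d ∧ ¬ σ p j d
  ty : ∀ t < 2, ∀ σ, Q t σ → ∀ j < 6, σ 0 j 5 ↔ (j + t) % 2 = 1
  biex : ∀ t < 2, ∀ t' < 2, ∀ σ σ', Q t σ → Q t' σ' → ∀ p < 7, ∀ j < 6, ∀ j' < 6,
    (∀ c < 6, σ p j c → T p c) → (∀ c < 6, σ' p j' c → T p c) → ∃ c < 6, σ p j c ∧ σ' p j' c
  deg : ∀ p < 7, ∀ a < 6, ∀ b < 6, ∀ c < 6, ∀ d < 6, a ≠ b → a ≠ c → a ≠ d → b ≠ c → b ≠ d → c ≠ d →
    T p a → T p b → T p c → T p d → ∃ x < 6, ∃ y < 6, x ≠ a ∧ y ≠ a ∧ x ≠ y ∧ T p x ∧ T p y ∧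
      ∀ t < 2, ∀ σ, Q t σ → ∀ j < 6, ¬ (∀ e < 6, σ p j e ↔ e = a ∨ e = x) ∧
        ¬ (∀ e < 6, σ p j e ↔ e = a ∨ e = y)
  r7 : ∀ r ∈ inRows, ∀ t < 2, ∀ t' < 2, ∀ σ σ', Q t σ → Q t' σ' → ∀ j < 6,
    ∃ c < 6, σ' r.2.2 j c ∧ ¬ σ r.1 r.2.1 c
  s3 : ∀ a < 5, ∃ g < 12, ∀ r ∈ regRow g, ∃ σ, Q r.2.2 σ ∧ ¬ σ r.1 r.2.1 a
  s12 : ∀ r ∈ avRows, ∀ σ, Q r.2.2.1 σ → ∃ σ', Q r.2.2.2.2.2 σ' ∧
    ∀ c < 6, σ r.1 r.2.1 c → ¬ σ' r.2.2.2.1 r.2.2.2.2.1 c

/-! ### Global literals -/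

/-- the code of a literal -/
def cd (k p d t S : ℕ) : ℕ := k + 8 * p + 128 * d + 1024 * t + 2048 * S

/-- meaning of a code -/
def P (T : ℕ → ℕ → Prop) (Q : ℕ → St → Prop) (n : ℕ) : Prop :=
  let p := n / 8 % 16
  let d := n / 128 % 8
  let t := n / 1024 % 2
  let S := n / 2048
  match n % 8 with
  | 0 => ∀ c < 6, S.testBit c = true → T p c
  | 1 => (∃ t < 2, ∃ σ, Q t σ ∧ ∃ d < 6, ∀ c < 6, σ p d c ↔ S.testBit c = true) ∧
      ∀ c < 6, S.testBit c = true → T p c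
  | 2 => ∃ σ, Q t σ ∧ ∀ c < 6, S.testBit c = true → ¬ σ p d c
  | 3 => ∃ σ, Q t σ ∧ ∀ c < 6, S.testBit c = true → σ p d c
  | 4 => ∃ t < 2, ∃ σ, Q t σ ∧ ∃ d < 6, ∀ c < 6, σ p d c → S.testBit c = true
  | _ => ∀ r ∈ regRow p, ∃ σ, Q r.2.2 σ ∧ ∀ c < 6, S.testBit c = true → ¬ σ r.1 r.2.1 c

/-- meaning of a signed literal -/
def L (T : ℕ → ℕ → Prop) (Q : ℕ → St → Prop) (l : ℕ) : Prop :=
  if l % 2 = 0 then P T Q (l / 2) else ¬ P T Q (l / 2)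

/-- the clause holds in every system -/
def Good (C : List ℕ) : Prop := ∀ T Q, Fr T Q → ∃ l ∈ C, L T Q l

/-! ### Symmetries: `h < 3` : rotation by `2 h`, `3 ≤ h < 6` : reflection `j ↦ 2 (h - 3) + 1 - j` -/

/-- slots -/
def dm (h j : ℕ) : ℕ := if h < 3 then (j + 2 * h) % 6 else (2 * (h - 3) + 7 - j) % 6

/-- nodes -/
def nm (h p : ℕ) : ℕ := if p = 0 then 0 else 1 + dm h (p - 1)

/-- sides -/
def tm (h t : ℕ) : ℕ := if h < 3 then t else 1 - t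

/-- regions -/
def rm (h r : ℕ) : ℕ :=
  if r < 6 then (if h < 3 then dm h r else (2 * (h - 3) + 1 + 10 - r) % 6)
  else 6 + (if h < 3 then dm h (r - 6) else (2 * (h - 3) + 1 + 9 - (r - 6)) % 6)

/-- masks, `f` a function on colours -/
def mm (f : ℕ → ℕ) (S : ℕ) : ℕ :=
  (List.range 6).foldl (fun s c => if S.testBit c then s ||| 1 <<< f c else s) 0

/-- image of a code -/
def im (h : ℕ) (f : ℕ → ℕ) (n : ℕ) : ℕ :=
  let p := n / 8 % 16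
  let d := n / 128 % 8
  let t := n / 1024 % 2
  let S := n / 2048
  match n % 8 with
  | 0 => cd 0 (nm h p) 0 0 (mm f S)
  | 1 => cd 1 (nm h p) 0 0 (mm f S)
  | 2 => cd 2 (nm h p) (dm h d) (tm h t) (mm f S)
  | 3 => cd 3 (nm h p) (dm h d) (tm h t) (mm f S)
  | 4 => cd 4 (nm h p) 0 0 (mm f S)
  | _ => cd 5 (rm h p) 0 0 (mm f S)

/-- image of a signed literal -/
def iml (h : ℕ) (f : ℕ → ℕ) (l : ℕ) : ℕ := 2 * im h f (l / 2) + l % 2

/-- admissible codes -/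
def okc (n : ℕ) : Bool :=
  decide (n / 8 % 16 < (if n % 8 = 5 then 12 else 7)) && decide (n / 128 % 8 < 6) &&
    decide (n / 2048 < 64)

end Vale.Agent.P032.H766.Iso
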